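import Mathlib
import Vale.Agent.P136.Green
import Vale.Agent.P136.Full.Alg.Adjoint
import Vale.Agent.P136.Full.Spec

/-!
# P136: integrals over the domain, and the null conic
-/

open MeasureTheory Set Filter
open scoped ContDiff Topology

namespace Vale.Agent.P136.Full.Rig

noncomputable section

/-- The integral over the domain. -/
def I (Ω : Set Space) (f : Space → ℂ) : ℂ := ∫ x in Ω, f x

variable {Ω : Set Space} {f g : Space → ℂ}

theorem integrableOn (hb : Bornology.IsBounded Ω) (hf : Continuous f) : IntegrableOn f Ω :=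
  (hf.continuousOn.integrableOn_compact hb.isCompact_closure).mono_set subset_closure

theorem I_add (hb : Bornology.IsBounded Ω) (hf : Continuous f) (hg : Continuous g) :
    I Ω (fun x => f x + g x) = I Ω f + I Ω g :=
  integral_add (integrableOn hb hf) (integrableOn hb hg)

theorem I_sub (hb : Bornology.IsBounded Ω) (hf : Continuous f) (hg : Continuous g) :
    I Ω (fun x => f x - g x) = I Ω f - I Ω g :=
  integral_sub (integrableOn hb hf) (integrableOn hb hg)

theorem I_congr (h : ∀ x, f x = g x) : I Ω f = I Ω g := by rw [funext h]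

theorem I_zero : I Ω (fun _ => (0 : ℂ)) = 0 := by simp [I]

theorem I_pd_zero (hΩ : IsOpen Ω) (hb : Bornology.IsBounded Ω) (i : Fin 3) (hf : ContDiff ℝ ∞ f)
    (h0 : ∀ x ∈ frontier Ω, f x = 0) : I Ω (pd i f) = 0 := by
  refine integral_pd_eq_zero hΩ hb i (contDiff_pd hf i).continuous (fun y t => ?_) h0
  have hl : HasDerivAt (fun s => i.insertNth (α := fun _ => ℝ) s y) (Pi.single i 1) t := by
    rw [hasDerivAt_pi]
    intro j
    rcases Fin.eq_self_or_eq_succAbove i j with rfl | ⟨k, rfl⟩
    · simp only [Fin.insertNth_apply_same, Pi.single_eq_same]; exact hasDerivAt_id t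
    · simpa [Fin.succAbove_ne] using hasDerivAt_const t (y k)
  exact (hf.differentiable (by simp) _).hasFDerivAt.comp_hasDerivAt t hl

theorem I_Dth_zero (hΩ : IsOpen Ω) (hb : Bornology.IsBounded Ω) (θ : C3) (hf : ContDiff ℝ ∞ f)
    (h0 : ∀ x ∈ frontier Ω, f x = 0) : I Ω (Dth θ f) = 0 := by
  have h : ∀ i, Integrable (fun x => θ i • pd i f x) (volume.restrict Ω) := fun i =>
    (integrableOn hb (contDiff_pd hf i).continuous).smul (θ i)
  show ∫ x in Ω, ∑ i, θ i • pd i f x = 0
  rw [integral_finsetSum _ fun i _ => h i]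
  refine Finset.sum_eq_zero fun i _ => ?_
  rw [integral_smul, show ∫ x in Ω, pd i f x = 0 from I_pd_zero hΩ hb i hf h0, smul_zero]

/-- A continuous function orthogonal to all test functions vanishes. -/
theorem zero_of_test (hΩ : IsOpen Ω) (hf : Continuous f)
    (h : ∀ φ : Space → ℂ, ContDiff ℝ ∞ φ → HasCompactSupport φ → tsupport φ ⊆ Ω →
      I Ω (fun x => φ x * f x) = 0) : ∀ x ∈ Ω, f x = 0 := by
  have hae : ∀ᵐ x ∂(volume : Measure Space), x ∈ Ω → f x = 0 := by
    refine hΩ.ae_eq_zero_of_integral_contDiff_smul_eq_zero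
      (hf.locallyIntegrable.locallyIntegrableOn _) fun g hg hgc hgs => ?_
    have h1 := h (fun x => (g x : ℂ)) (Complex.ofRealCLM.contDiff.comp hg)
      (hgc.comp_left (g := ((↑) : ℝ → ℂ)) Complex.ofReal_zero)
      ((tsupport_comp_subset Complex.ofReal_zero g).trans hgs)
    have h2 : ∫ x, g x • f x = ∫ x in Ω, g x • f x :=
      (setIntegral_eq_integral_of_forall_compl_eq_zero fun x hx => by
        simp [image_eq_zero_of_notMem_tsupport fun hh => hx (hgs hh)]).symm
    rw [h2]
    simpa [I, Complex.real_smul] using h1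
  have : f =ᵐ[volume.restrict Ω] fun _ => 0 := (ae_restrict_iff' hΩ.measurableSet).2 hae
  exact fun x hx => Measure.eqOn_open_of_ae_eq this hΩ hf.continuousOn continuousOn_const hx

theorem conic_eq (z : ℂ) : conic z = eps 0 z - z • eps 1 z := by
  funext i
  fin_cases i <;> simp [conic, eps] <;> ring

theorem bdot_conic_eps (z : ℂ) (a : Fin 2) : bdot (conic z) (eps a z) = 0 := by
  fin_cases a <;> simp [bdot, conic, eps, Fin.sum_univ_three] <;> ring_nf <;> simp [Complex.I_sq] <;> ring

theorem bdot_conic_conic (z : ℂ) : bdot (conic z) (conic z) = 0 := by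
  simp [bdot, conic, Fin.sum_univ_three]; ring_nf; simp [Complex.I_sq]

theorem bdot_eps1 (z : ℂ) : bdot (eps 1 z) (eps 1 z) = 1 := by
  simp [bdot, eps, Fin.sum_univ_three]; ring_nf; simp [Complex.I_sq]

/-- A vector with nonzero product with `conic z`. -/
theorem exists_bdot_ne (z : ℂ) : ∃ u : C3, bdot (conic z) u ≠ 0 := by
  by_contra h
  push Not at h
  have h0 := h (Pi.single 0 1)
  have h1 := h (Pi.single 1 1)
  simp [bdot, conic, Pi.single_apply] at h0 h1
  have : (2 : ℂ) = 0 := by linear_combination h0 + h1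
  norm_num at this

/-- A linear functional vanishing on the conic vanishes. -/
theorem linear_conic {a : C3} (h : ∀ z, bdot (conic z) a = 0) : ∀ i, a i = 0 := by
  have h0 := h 0
  have h1 := h 1
  have h2 := h (-1)
  simp [bdot, conic, Fin.sum_univ_three] at h0 h1 h2
  have hI := Complex.I_ne_zero
  have e2 : a 2 = 0 := by linear_combination h1 / 4 - h2 / 4
  have e1 : a 1 = 0 := by
    have : Complex.I * a 1 = 0 := by linear_combination h1 / 4 + h2 / 4
    exact (mul_eq_zero.1 this).resolve_left hI
  have e0 : a 0 = 0 := by linear_combination h0 - Complex.I * e1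
  intro i; fin_cases i <;> assumption

/-- A symmetric bilinear form vanishing on the conic is scalar. -/
theorem quadratic_conic {S : Fin 3 → Fin 3 → ℂ} (hs : ∀ i j, S i j = S j i)
    (h : ∀ z, ∑ i, ∑ j, conic z i * conic z j * S i j = 0) :
    ∀ i j, S i j = if i = j then S 0 0 else 0 := by
  have h0 := h 0
  have h1 := h 1
  have h2 := h (-1)
  have h3 := h Complex.I
  have h4 := h (-Complex.I)
  simp [conic, Fin.sum_univ_three, hs 1 0, hs 2 0, hs 2 1] at h0 h1 h2 h3 h4
  have hII := Complex.I_mul_I
  have hI := Complex.I_ne_zero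
  ring_nf at h0 h1 h2 h3 h4
  simp [Complex.I_sq] at h0 h1 h2 h3 h4
  have e12 : S 1 2 = 0 := by
    have : Complex.I * S 1 2 = 0 := by linear_combination h1 / 16 - h2 / 16
    exact (mul_eq_zero.1 this).resolve_left hI
  have e02 : S 0 2 = 0 := by
    have : Complex.I * S 0 2 = 0 := by linear_combination h3 / 16 - h4 / 16
    exact (mul_eq_zero.1 this).resolve_left hI
  have e22 : S 2 2 = S 0 0 := by linear_combination (-1 / 8 : ℂ) * (h3 + h4)
  have e11 : S 1 1 = S 0 0 := by linear_combination (-1 / 8 : ℂ) * (h1 + h2) + e22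
  have e01 : S 0 1 = 0 := by
    have : Complex.I * S 0 1 = 0 := by linear_combination h0 / 2 + e11 / 2
    exact (mul_eq_zero.1 this).resolve_left hI
  intro i j
  fin_cases i <;> fin_cases j <;> simp [hs 1 0, hs 2 0, hs 2 1, *]

theorem grad_bdot (θ : C3) (f : Space → ℂ) (x : Space) : bdot (grad f x) θ = Dth θ f x := by
  simp [bdot, grad, Dth, mul_comm]

theorem hess_quad (θ : C3) (f : Space → ℂ) (hf : ContDiff ℝ ∞ f) (x : Space) :
    bdot θ (hessVec f x θ) = Dth θ (Dth θ f) x := by
  have e : ∀ j, pd j (Dth θ f) x = ∑ i, θ i • pd j (pd i f) x := by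
    intro j
    show pd j (fun y => ∑ i, θ i • pd i f y) x = _
    rw [pd_sum _ j fun k _ => (((contDiff_pd hf k).differentiable (by simp)) x).fun_const_smul _]
    exact Finset.sum_congr rfl fun i _ => pd_const_smul j _ ((contDiff_pd hf i).differentiable (by simp) x)
  show _ = ∑ j, θ j • pd j (Dth θ f) x
  simp only [e, bdot, hessVec, hess, Fin.sum_univ_three, smul_eq_mul]
  ring

end

end Vale.Agent.P136.Full.Rig
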