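import Mathlib
import Vale.Agent.P136.Full.Alg.Pd

/-!
# P136: every smooth function is a first partial derivative of a smooth function
-/

open MeasureTheory Set
open scoped ContDiff Topology

namespace Vale.Agent.P136.Full.Rig

noncomputable section

variable {E : Type} [NormedAddCommGroup E] [NormedSpace ℝ E] [CompleteSpace E]

/-- A parametric integral over `[0, 1]`. -/
def par (F : ℝ × Space → E) (x : Space) : E := ∫ s in (0 : ℝ)..1, F (s, x)

theorem hasFDerivAt_par {F : ℝ × Space → E} (hF : ContDiff ℝ (1 : ℕ) F) (x : Space) :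
    HasFDerivAt (par F)
      (par (fun p => (fderiv ℝ F p).comp (ContinuousLinearMap.inr ℝ ℝ Space)) x) x := by
  have hdF : Continuous fun p => (fderiv ℝ F p).comp (ContinuousLinearMap.inr ℝ ℝ Space) :=
    (hF.continuous_fderiv (by norm_num)).clm_comp continuous_const
  have hcont : ∀ y : Space, Continuous fun s : ℝ => F (s, y) := fun y => hF.continuous.comp (by fun_prop)
  obtain ⟨K, hK⟩ := ((isCompact_uIcc (a := (0 : ℝ)) (b := 1)).prod (isCompact_closedBall x 1)).exists_bound_of_continuousOn
    (f := fun p => (fderiv ℝ F p).comp (ContinuousLinearMap.inr ℝ ℝ Space)) hdF.continuousOn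
  exact intervalIntegral.hasFDerivAt_integral_of_dominated_of_fderiv_le
    (F := fun y s => F (s, y))
    (F' := fun y s => (fderiv ℝ F (s, y)).comp (ContinuousLinearMap.inr ℝ ℝ Space)) (bound := fun _ => K)
    (Metric.closedBall_mem_nhds x one_pos) (Filter.Eventually.of_forall fun y => (hcont y).aestronglyMeasurable)
    ((hcont x).intervalIntegrable _ _) (hdF.comp (by fun_prop : Continuous fun s : ℝ => (s, x))).aestronglyMeasurable
    (Filter.Eventually.of_forall fun s hs y hy => hK (s, y) ⟨uIoc_subset_uIcc hs, hy⟩) intervalIntegrable_const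
    (Filter.Eventually.of_forall fun s _ y _ =>
      ((hF.differentiable (by norm_num)) (s, y)).hasFDerivAt.comp y (hasFDerivAt_prodMk_right s y))

theorem contDiff_par (n : ℕ) :
    ∀ {E : Type} [NormedAddCommGroup E] [NormedSpace ℝ E] [CompleteSpace E] {F : ℝ × Space → E},
      (∀ m : ℕ, ContDiff ℝ m F) → ContDiff ℝ n (par F) := by
  induction n with
  | zero =>
    intro E _ _ _ F hF
    exact contDiff_zero.2 (continuous_iff_continuousAt.2 fun x => (hasFDerivAt_par (hF 1) x).continuousAt)
  | succ n ih =>
    intro E _ _ _ F hF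
    rw [show ((n + 1 : ℕ) : WithTop ℕ∞) = (n : WithTop ℕ∞) + 1 by norm_cast, contDiff_succ_iff_fderiv]
    refine ⟨fun x => (hasFDerivAt_par (hF 1) x).differentiableAt, by simp, ?_⟩
    rw [funext fun x => (hasFDerivAt_par (hF 1) x).fderiv]
    exact ih fun m => ((hF (m + 1)).fderiv_right (by norm_cast)).clm_comp contDiff_const

/-- The first coordinate vector. -/
def e0 : Space := Pi.single 0 1

/-- A primitive along the first coordinate. -/
def prim (f : Space → ℂ) (x : Space) : ℂ :=
  x 0 • par (fun p => f (p.2 + ((p.1 - 1) * p.2 0) • e0)) x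

theorem contDiff_prim {f : Space → ℂ} (hf : ContDiff ℝ ∞ f) : ContDiff ℝ ∞ (prim f) := by
  refine (contDiff_apply ℝ ℝ 0).smul (contDiff_infty.2 fun n => contDiff_par n fun m => ?_)
  exact (hf.of_le (by exact_mod_cast le_top)).comp (by fun_prop)

theorem pd_prim {f : Space → ℂ} (hf : ContDiff ℝ ∞ f) (x : Space) : pd 0 (prim f) x = f x := by
  let g : ℝ → ℂ := fun u => f (x + (u - x 0) • e0)
  have hg : Continuous g := hf.continuous.comp (by fun_prop)
  have hline : ∀ t : ℝ, prim f (x + t • e0) = ∫ u in (0 : ℝ)..(x 0 + t), g u := by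
    intro t
    have h0 : (x + t • e0) 0 = x 0 + t := by simp [e0]
    unfold prim par
    rw [h0]
    have h := intervalIntegral.smul_integral_comp_mul_right g (x 0 + t) (a := (0 : ℝ)) (b := 1)
    rw [zero_mul, one_mul] at h
    rw [← h]
    congr 1
    refine intervalIntegral.integral_congr fun s _ => ?_
    simp only [g]
    congr 1
    rw [h0]
    module
  have h1 : HasDerivAt (fun t : ℝ => prim f (x + t • e0)) (f x) 0 := by
    simp only [funext hline]
    have h := HasDerivAt.scomp (g₁ := fun u : ℝ => ∫ y in (0 : ℝ)..u, g y) (0 : ℝ)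
      (hg.integral_hasStrictDerivAt 0 (x 0 + id 0)).hasDerivAt ((hasDerivAt_id (0 : ℝ)).const_add (x 0))
    simpa [Function.comp_def, g] using h
  have h2 : HasDerivAt (fun t : ℝ => prim f (x + t • e0)) (pd 0 (prim f) x) 0 := by
    have hl : HasDerivAt (fun t : ℝ => x + t • e0) e0 0 := by
      simpa using ((hasDerivAt_id (0 : ℝ)).smul_const e0).const_add x
    have := ((contDiff_prim hf).differentiable (by simp) x).hasFDerivAt
    exact HasFDerivAt.comp_hasDerivAt (0 : ℝ) (by simpa using this) hl
  exact h2.unique h1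

end

end Vale.Agent.P136.Full.Rig
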