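import Mathlib
import Vale.Agent.P136.Full.Rigidity.Basic
import Vale.Agent.P136.Full.Rigidity.Prim

/-!
# P136: what Liouville and the transport identity say about the gauge
-/

open MeasureTheory Set Filter
open scoped ContDiff Topology

namespace Vale.Agent.P136.Full.Rig

noncomputable section

/-- A vector amplitude. -/
def vec (u : C3) (f : Space → ℂ) : Space → Amp := fun x => (f x • u, 0)

/-- A vector field as an amplitude. -/
def vecF (V : Space → C3) : Space → Amp := fun x => (V x, 0)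

/-- A scalar amplitude. -/
def sca (f : Space → ℂ) : Space → Amp := fun x => (0, f x)

/-- A constant vector amplitude. -/
def Xv (w : C3) : Space → Amp := fun _ => (w, 0)

/-- The constant scalar amplitude. -/
def Xs : Space → Amp := fun _ => (0, 1)

theorem contDiff_vecF {V : Space → C3} (h : ContDiff ℝ ∞ V) : ContDiff ℝ ∞ (vecF V) :=
  h.prodMk contDiff_const

theorem contDiff_vec (u : C3) {f : Space → ℂ} (h : ContDiff ℝ ∞ f) : ContDiff ℝ ∞ (vec u f) :=
  (h.smul contDiff_const).prodMk contDiff_const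

theorem contDiff_sca {f : Space → ℂ} (h : ContDiff ℝ ∞ f) : ContDiff ℝ ∞ (sca f) :=
  contDiff_const.prodMk h

theorem contDiff_Xs : ContDiff ℝ ∞ Xs := contDiff_const

theorem contDiff_Xv (w : C3) : ContDiff ℝ ∞ (Xv w) := contDiff_const

theorem perp_Xs (z : ℂ) (x : Space) : bdot (conic z) (Xs x).1 = 0 := bdot_zero_right _

variable {Ω : Set Space} {M₁ M₂ : Moduli} (Γ : Gauge Ω M₁ M₂)

theorem G_zero_left (z : ℂ) {X : Space → Amp} (hX : ContDiff ℝ ∞ X)
    (hp : ∀ x, bdot (conic z) (X x).1 = 0) : Γ.G z (fun _ => 0) X = 0 := by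
  have h := Γ.smul_left z 0 (fun _ => 0) X contDiff_const hX hp
  simp only [zero_mul] at h
  rw [← h]
  congr 1
  funext x
  simp

theorem G_smul_right (z : ℂ) (a : ℂ) {ξ X : Space → Amp} (hξ : ContDiff ℝ ∞ ξ) (hX : ContDiff ℝ ∞ X)
    (hp : ∀ x, bdot (conic z) (X x).1 = 0) : Γ.G z ξ (fun x => a • X x) = a * Γ.G z ξ X := by
  rw [← Γ.move z (fun _ => a) ξ X contDiff_const hξ hX hp]
  exact Γ.smul_left z a ξ X hξ hX hp

theorem G_vecF_eq (z : ℂ) {V : Space → C3} (hV : ContDiff ℝ ∞ V) {X : Space → Amp}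
    (hX : ContDiff ℝ ∞ X) (hp : ∀ x, bdot (conic z) (X x).1 = 0) :
    Γ.G z (vecF V) X = ∑ i, Γ.G z (vec (Pi.single i 1) fun x => V x i) X := by
  have hc : ∀ i, ContDiff ℝ ∞ (vec (Pi.single i 1) fun x => V x i) := fun i =>
    contDiff_vec _ ((contDiff_apply ℝ ℂ i).comp hV)
  have e : vecF V = vec (Pi.single 0 1) (fun x => V x 0) + vec (Pi.single 1 1) (fun x => V x 1) +
      vec (Pi.single 2 1) (fun x => V x 2) := by
    funext x
    refine Prod.ext ?_ (by simp [vec, vecF])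
    funext i
    fin_cases i <;> simp [vec, vecF]
  rw [e, Γ.add_left z (vec (Pi.single 0 1) (fun x => V x 0) + vec (Pi.single 1 1) (fun x => V x 1))
      (vec (Pi.single 2 1) fun x => V x 2) X ((hc 0).add (hc 1)) (hc 2) hX hp,
    Γ.add_left z _ _ X (hc 0) (hc 1) hX hp, Fin.sum_univ_three]

theorem G_vec_eq (z : ℂ) (u : C3) {f : Space → ℂ} (hf : ContDiff ℝ ∞ f) {X : Space → Amp}
    (hX : ContDiff ℝ ∞ X) (hp : ∀ x, bdot (conic z) (X x).1 = 0) :
    Γ.G z (vec u f) X = ∑ i, u i * Γ.G z (vec (Pi.single i 1) f) X := by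
  rw [show vec u f = vecF (fun x => f x • u) from rfl,
    G_vecF_eq Γ z (V := fun x => f x • u) (hf.smul contDiff_const) hX hp]
  refine Finset.sum_congr rfl fun i _ => ?_
  rw [← Γ.smul_left z (u i) _ X (contDiff_vec _ hf) hX hp]
  congr 1
  funext x
  simp [vec, smul_smul, mul_comm]

theorem liouville {g : ℂ → ℂ} (hg : Differentiable ℂ g) {C : ℝ} (hb : ∀ z, ‖g z‖ ≤ C) :
    ∀ z, g z = g 0 :=
  fun z => hg.apply_eq_apply_of_bounded
    ((isBounded_iff_forall_norm_le).2 ⟨C, by rintro _ ⟨w, rfl⟩; exact hb w⟩) z 0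

theorem liouville_linear {g : ℂ → ℂ} (hg : Differentiable ℂ g) {C : ℝ}
    (hb : ∀ z, ‖g z‖ ≤ C * (1 + ‖z‖)) : ∀ z, g z = g 0 + z * (g 1 - g 0) := by
  set h := dslope g 0 with hh
  have hd : Differentiable ℂ h := fun z =>
    ((Complex.differentiableOn_dslope Filter.univ_mem).2 hg.differentiableOn).differentiableAt Filter.univ_mem
  obtain ⟨B, hB⟩ := (isCompact_closedBall (0 : ℂ) 1).exists_bound_of_continuousOn hd.continuous.continuousOn
  have hC : 0 ≤ C := by
    have := (norm_nonneg _).trans (hb 0)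
    simpa using this
  have hbd : ∀ z, ‖h z‖ ≤ max B (3 * C) := by
    intro z
    by_cases hz : ‖z‖ ≤ 1
    · exact (hB z (mem_closedBall_zero_iff.2 hz)).trans (le_max_left _ _)
    · push Not at hz
      have hz0 : z ≠ 0 := by intro e; rw [e, norm_zero] at hz; linarith
      refine le_trans ?_ (le_max_right _ _)
      rw [hh, dslope_of_ne _ hz0, slope_def_field, sub_zero, norm_div,
        div_le_iff₀ (norm_pos_iff.2 hz0)]
      refine (norm_sub_le _ _).trans ?_
      have h1 := hb z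
      have h2 := hb 0
      rw [norm_zero, add_zero, mul_one] at h2
      nlinarith
  have hconst := liouville hd hbd
  have key : ∀ z, g z = g 0 + z * h 0 := by
    intro z
    have e := sub_smul_dslope g 0 z
    rw [← hh, hconst z, sub_zero, smul_eq_mul] at e
    rw [e]; ring
  intro z
  rw [key z, key 1]; ring

theorem sca_vec_single (i : Fin 3) {f : Space → ℂ} (hf : ContDiff ℝ ∞ f) :
    ∀ z, Γ.G z (vec (Pi.single i 1) f) Xs = 0 := by
  have hc : ∀ j z, Γ.G z (vec (Pi.single j 1) f) Xs = Γ.G 0 (vec (Pi.single j 1) f) Xs := fun j => by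
    obtain ⟨C, hC⟩ := Γ.growth_sca _ (contDiff_vec (Pi.single j 1) hf)
    exact liouville (Γ.analytic_sca _ (contDiff_vec (Pi.single j 1) hf)) hC
  have h0 : ∀ z, bdot (conic z) (fun j => Γ.G 0 (vec (Pi.single j 1) f) Xs) = 0 := by
    intro z
    have h : Γ.G z (vec (conic z) f) Xs = 0 :=
      Γ.theta_left z f Xs hf contDiff_Xs (perp_Xs z)
    rw [G_vec_eq Γ z _ hf contDiff_Xs (perp_Xs z)] at h
    simpa [bdot, hc] using h
  intro z
  rw [hc i z]
  exact linear_conic h0 i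

theorem sca_vecF (z : ℂ) {V : Space → C3} (hV : ContDiff ℝ ∞ V) : Γ.G z (vecF V) Xs = 0 := by
  rw [G_vecF_eq Γ z hV contDiff_Xs (perp_Xs z)]
  exact Finset.sum_eq_zero fun i _ => sca_vec_single Γ i ((contDiff_apply ℝ ℂ i).comp hV) z

/-- The scalar-scalar component. -/
def k1 (f : Space → ℂ) : ℂ := Γ.G 0 (sca f) Xs

theorem G_sca_Xs (z : ℂ) {f : Space → ℂ} (hf : ContDiff ℝ ∞ f) : Γ.G z (sca f) Xs = k1 Γ f := by
  obtain ⟨C, hC⟩ := Γ.growth_sca _ (contDiff_sca hf)
  exact liouville (Γ.analytic_sca _ (contDiff_sca hf)) hC z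

theorem k1_add {f g : Space → ℂ} (hf : ContDiff ℝ ∞ f) (hg : ContDiff ℝ ∞ g) :
    k1 Γ (fun x => f x + g x) = k1 Γ f + k1 Γ g := by
  unfold k1
  rw [← Γ.add_left 0 _ _ Xs (contDiff_sca hf) (contDiff_sca hg) contDiff_Xs (perp_Xs 0)]
  congr 1
  funext x
  simp [sca]

theorem k1_smul (a : ℂ) {f : Space → ℂ} (hf : ContDiff ℝ ∞ f) :
    k1 Γ (fun x => a * f x) = a * k1 Γ f := by
  unfold k1
  rw [← Γ.smul_left 0 a _ Xs (contDiff_sca hf) contDiff_Xs (perp_Xs 0)]
  congr 1
  funext x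
  simp [sca]

theorem G_Xs (z : ℂ) {V : Space → C3} {f : Space → ℂ} (hV : ContDiff ℝ ∞ V) (hf : ContDiff ℝ ∞ f) :
    Γ.G z (fun x => (V x, f x)) Xs = k1 Γ f := by
  have e : (fun x => ((V x, f x) : Amp)) = vecF V + sca f := by
    funext x; simp [vecF, sca]
  rw [e, Γ.add_left z _ _ Xs (contDiff_vecF hV) (contDiff_sca hf) contDiff_Xs (perp_Xs z),
    sca_vecF Γ z hV, G_sca_Xs Γ z hf, zero_add]

/-- Splitting the right argument. -/
theorem split_right (z : ℂ) {ξ : Space → Amp} (hξ : ContDiff ℝ ∞ ξ) {α δ : Space → ℂ}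
    (hα : ContDiff ℝ ∞ α) (hδ : ContDiff ℝ ∞ δ) {w : C3} (hw : bdot (conic z) w = 0) :
    Γ.G z ξ (fun x => (α x • w, δ x)) =
      Γ.G z (fun x => α x • ξ x) (Xv w) + Γ.G z (fun x => δ x • ξ x) Xs := by
  rw [Γ.move z α ξ _ hα hξ (contDiff_Xv w) (fun _ => hw),
    Γ.move z δ ξ _ hδ hξ contDiff_Xs (perp_Xs z),
    ← Γ.add_right z ξ (fun x => α x • Xv w x) (fun x => δ x • Xs x) hξ (hα.smul (contDiff_Xv w))
      (hδ.smul contDiff_Xs)
      (fun x => by simp [Xv, bdot_smul_right, hw]) (fun x => by simp [Xs, bdot_zero_right])]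
  congr 1
  funext x
  simp [Xv, Xs]

theorem contDiff_hessVec {f : Space → ℂ} (hf : ContDiff ℝ ∞ f) (v : C3) :
    ContDiff ℝ ∞ fun x => hessVec f x v :=
  contDiff_pi.2 fun i => ContDiff.sum fun j _ =>
    (contDiff_pd (contDiff_pd hf i) j).mul contDiff_const

theorem contDiff_grad {f : Space → ℂ} (hf : ContDiff ℝ ∞ f) : ContDiff ℝ ∞ (grad f) :=
  contDiff_pi.2 fun i => contDiff_pd hf i

/-- The factor relating the two scalar multipliers. -/
def rat (M₁ M₂ : Moduli) (x : Space) : ℂ := M₁.muC x * M₂.AC x / (M₁.AC x * M₂.muC x)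

theorem rat_ne (x : Space) : rat M₁ M₂ x ≠ 0 :=
  div_ne_zero (mul_ne_zero (M₁.muC_ne x) (M₂.AC_ne x)) (mul_ne_zero (M₁.AC_ne x) (M₂.muC_ne x))

theorem contDiff_div {f g : Space → ℂ} (hf : ContDiff ℝ ∞ f) (hg : ContDiff ℝ ∞ g)
    (h : ∀ x, g x ≠ 0) : ContDiff ℝ ∞ fun x => f x / g x := by
  simp only [div_eq_mul_inv]
  exact hf.mul (hg.inv h)

theorem contDiff_rat : ContDiff ℝ ∞ (rat M₁ M₂) :=
  contDiff_div (M₁.contDiff_muC.mul M₂.contDiff_AC) (M₁.contDiff_AC.mul M₂.contDiff_muC)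
    fun x => mul_ne_zero (M₁.AC_ne x) (M₂.muC_ne x)

/-- The vector-vector multiplier. -/
def k0 (f : Space → ℂ) : ℂ := k1 Γ fun x => f x / rat M₁ M₂ x

theorem k0_add {f g : Space → ℂ} (hf : ContDiff ℝ ∞ f) (hg : ContDiff ℝ ∞ g) :
    k0 Γ (fun x => f x + g x) = k0 Γ f + k0 Γ g := by
  unfold k0
  rw [← k1_add Γ (contDiff_div hf contDiff_rat rat_ne) (contDiff_div hg contDiff_rat rat_ne)]
  simp only [add_div]

theorem k0_smul (a : ℂ) {f : Space → ℂ} (hf : ContDiff ℝ ∞ f) :
    k0 Γ (fun x => a * f x) = a * k0 Γ f := by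
  unfold k0
  rw [← k1_smul Γ a (contDiff_div hf contDiff_rat rat_ne)]
  simp only [mul_div_assoc]

theorem k0_zero : k0 Γ (fun _ => 0) = 0 := by
  have := k0_smul Γ 0 (contDiff_const (c := (0 : ℂ)))
  simpa using this

/-- The vector component at `θ`. -/
theorem vec_theta (z : ℂ) (u : C3) {ψ : Space → ℂ} (hψ : ContDiff ℝ ∞ ψ) :
    Γ.G z (vec u ψ) (Xv (conic z)) = bdot (conic z) u * k0 Γ ψ := by
  set φ : Space → ℂ := fun x => 2 * M₂.muC x * ψ x / M₂.AC x with hφdef
  have hφ : ContDiff ℝ ∞ φ :=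
    contDiff_div ((contDiff_const.mul M₂.contDiff_muC).mul hψ) M₂.contDiff_AC M₂.AC_ne
  set θ := conic z with hθ
  have g := Γ.green z (vec u φ) Xs (contDiff_vec u hφ) contDiff_Xs (perp_Xs z)
  have hr : I Ω (fun x => Dth θ (fun y => dot4 (vec u φ y) (Xs y)) x) = 0 := by
    refine (I_congr fun x => ?_).trans I_zero
    simp [dot4, vec, Xs, bdot_zero_right, Dth, pd_const]
  rw [show (∫ x in Ω, Dth θ (fun y => dot4 (vec u φ y) (Xs y)) x) = 0 from hr] at g
  have hη : ContDiff ℝ ∞ (fun x => Dth θ (vec u φ) x + M₁.amatT θ x (vec u φ x)) := by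
    have h1 := contDiff_Dth (contDiff_vec u hφ) θ
    refine h1.add (ContDiff.prodMk ?_ ?_)
    · refine ((contDiff_div (contDiff_Dth M₁.contDiff_muC θ) (contDiff_const.mul M₁.contDiff_muC)
        fun x => mul_ne_zero two_ne_zero (M₁.muC_ne x)).neg.smul (hφ.smul contDiff_const)).sub ?_ |>.add ?_
      · exact (contDiff_div (by simp only [vec, bdot_smul_right]; exact hφ.mul contDiff_const)
          (contDiff_const.mul M₁.contDiff_muC) fun x => mul_ne_zero two_ne_zero (M₁.muC_ne x)).smul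
          (contDiff_grad M₁.contDiff_muC)
      · simp only [vec, mul_zero, zero_div, zero_smul]; exact contDiff_const
    · simp only [vec, bdot_smul_right, mul_zero, zero_div, sub_zero]
      exact (contDiff_div (M₁.contDiff_AC.mul (hφ.mul contDiff_const))
        (contDiff_const.mul M₁.contDiff_muC) fun x => mul_ne_zero two_ne_zero (M₁.muC_ne x)).neg
  have e1 : Γ.G z (fun x => Dth θ (vec u φ) x + M₁.amatT θ x (vec u φ x)) Xs =
      -bdot θ u * k0 Γ ψ := by
    have hd : ∀ x, (Dth θ (vec u φ) x).2 = 0 := by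
      intro x
      rw [← Dth_snd θ ((contDiff_vec u hφ).differentiable (by simp) x)]
      simp [vec, Dth, pd_const]
    have e : (fun x => Dth θ (vec u φ) x + M₁.amatT θ x (vec u φ x)) =
        fun x => ((Dth θ (vec u φ) x + M₁.amatT θ x (vec u φ x)).1, -bdot θ u * (ψ x / rat M₁ M₂ x)) := by
      funext x
      refine Prod.ext rfl ?_
      have := M₁.muC_ne x; have := M₁.AC_ne x; have := M₂.muC_ne x; have := M₂.AC_ne x
      rw [Prod.snd_add, hd x]
      simp only [Moduli.amatT, vec, bdot_smul_right, hφdef, rat]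
      field_simp
      ring
    rw [e, G_Xs Γ z hη.fst (contDiff_const.mul (contDiff_div hψ contDiff_rat rat_ne))]
    exact k1_smul Γ _ (contDiff_div hψ contDiff_rat rat_ne)
  have e2 : Γ.G z (vec u φ) (fun x => Dth θ Xs x - M₂.amat θ x (Xs x)) =
      Γ.G z (vec u ψ) (Xv θ) := by
    set δ : Space → ℂ := fun x => (Dth θ M₂.AC x - M₂.AC x * Dth θ M₂.muC x / M₂.muC x) /
      (M₂.AC x + M₂.muC x) with hδdef
    have hδ : ContDiff ℝ ∞ δ := contDiff_div ((contDiff_Dth M₂.contDiff_AC θ).sub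
      (contDiff_div (M₂.contDiff_AC.mul (contDiff_Dth M₂.contDiff_muC θ)) M₂.contDiff_muC M₂.muC_ne))
      (M₂.contDiff_AC.add M₂.contDiff_muC) M₂.AC_add_muC_ne
    have hα : ContDiff ℝ ∞ fun x => M₂.AC x / (2 * M₂.muC x) :=
      contDiff_div M₂.contDiff_AC (contDiff_const.mul M₂.contDiff_muC)
        fun x => mul_ne_zero two_ne_zero (M₂.muC_ne x)
    have e : (fun x => Dth θ Xs x - M₂.amat θ x (Xs x)) =
        fun x => ((M₂.AC x / (2 * M₂.muC x)) • θ, δ x) := by
      funext x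
      have hX0 : ∀ i : Fin 3, pd i Xs x = 0 := fun i => pd_const i ((0, 1) : Amp) x
      rw [show Dth θ Xs x = 0 by simp [Dth, hX0], zero_sub]
      refine Prod.ext ?_ ?_
      · simp [Xs, Moduli.amat, bdot_zero_right]
      · simp [Xs, Moduli.amat, bdot_zero_left, hδdef]
        ring
    rw [e, split_right Γ z (contDiff_vec u hφ) hα hδ (bdot_conic_conic z)]
    have e3 : (fun x => δ x • vec u φ x) = vecF fun x => (δ x * φ x) • u := by
      funext x; simp [vec, vecF, smul_smul]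
    rw [e3, sca_vecF Γ z (V := fun x => (δ x * φ x) • u) ((hδ.mul hφ).smul contDiff_const), add_zero]
    congr 1
    funext x
    have := M₂.muC_ne x; have := M₂.AC_ne x
    simp only [vec, hφdef, Prod.smul_mk, smul_zero, smul_smul]
    congr 2
    field_simp
  rw [e1, e2] at g
  linear_combination g

/-- The vector component on the frame. -/
theorem vec_eps (a : Fin 2) (z : ℂ) (u : C3) {f : Space → ℂ} (hf : ContDiff ℝ ∞ f) :
    Γ.G z (vec u f) (Xv (eps a z)) = bdot u (eps a z) * k0 Γ f := by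
  let g : Fin 2 → Fin 3 → ℂ → ℂ := fun b i w => Γ.G w (vec (Pi.single i 1) f) (Xv (eps b w))
  have hlin : ∀ b i w, g b i w = g b i 0 + w * (g b i 1 - g b i 0) := fun b i => by
    obtain ⟨C, hC⟩ := Γ.growth_vec _ (contDiff_vec (Pi.single i 1) hf) b
    exact liouville_linear (Γ.analytic_vec _ (contDiff_vec (Pi.single i 1) hf) b) hC
  have hperp : ∀ b w, bdot (conic w) (fun i => g b i 0 + w * (g b i 1 - g b i 0)) = 0 := by
    intro b w
    have h : Γ.G w (vec (conic w) f) (Xv (eps b w)) = 0 :=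
      Γ.theta_left w f _ hf (contDiff_Xv _) fun _ => bdot_conic_eps w b
    rw [G_vec_eq Γ w _ hf (X := Xv (eps b w)) (contDiff_Xv _) (fun _ => bdot_conic_eps w b)] at h
    rw [show (fun i => g b i 0 + w * (g b i 1 - g b i 0)) = fun i => g b i w from
      funext fun i => (hlin b i w).symm]
    exact h
  have htheta : ∀ i w, (g 0 i 0 + w * (g 0 i 1 - g 0 i 0)) - w * (g 1 i 0 + w * (g 1 i 1 - g 1 i 0)) =
      conic w i * k0 Γ f := by
    intro i w
    have h := vec_theta Γ w (Pi.single i 1) hf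
    have e : Xv (conic w) = Xv (eps 0 w) + fun x => (-w) • Xv (eps 1 w) x := by
      funext x; simp [Xv, conic_eq w, sub_eq_add_neg, neg_smul]
    rw [e, Γ.add_right w _ (Xv (eps 0 w)) (fun x => (-w) • Xv (eps 1 w) x) (contDiff_vec _ hf) (contDiff_Xv _)
      (contDiff_const (c := ((-w) • (eps 1 w, 0) : Amp))) (fun _ => bdot_conic_eps w 0)
      (fun x => by
        show bdot _ ((-w) • eps 1 w) = 0
        rw [bdot_smul_right, bdot_conic_eps, mul_zero]),
      G_smul_right Γ w (-w) (X := Xv (eps 1 w)) (contDiff_vec _ hf) (contDiff_Xv _) (fun _ => bdot_conic_eps w 1)] at h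
    rw [show bdot (conic w) (Pi.single i 1) = conic w i by simp [bdot, Pi.single_apply]] at h
    rw [← hlin, ← hlin]
    linear_combination h
  have p : ∀ b, g b 1 0 = Complex.I * g b 0 0 ∧ (g b 2 1 - g b 2 0) = g b 0 0 ∧
      g b 2 0 = -(g b 0 1 - g b 0 0) ∧ (g b 1 1 - g b 1 0) = -(Complex.I * (g b 0 1 - g b 0 0)) := by
    intro b
    have h0 := hperp b 0
    have h1 := hperp b 1
    have h2 := hperp b (-1)
    have h3 := hperp b 2
    simp [bdot, conic, Fin.sum_univ_three] at h0 h1 h2 h3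
    have hI := Complex.I_sq
    refine ⟨?_, ?_, ?_, ?_⟩
    · linear_combination (-Complex.I) * h0 + g b 1 0 * hI
    · grind
    · grind
    · grind
  have key : g a 0 z = eps a z 0 * k0 Γ f ∧ g a 1 z = eps a z 1 * k0 Γ f ∧
      g a 2 z = eps a z 2 * k0 Γ f := by
    obtain ⟨a1, a2, a3, a4⟩ := p 0
    obtain ⟨b1, b2, b3, b4⟩ := p 1
    have t00 := htheta 0 0
    have t01 := htheta 0 1
    have t02 := htheta 0 (-1)
    have t20 := htheta 2 0
    have t21 := htheta 2 1
    have t22 := htheta 2 (-1)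
    simp [conic] at t00 t01 t02 t20 t21 t22
    have c00 : g 0 0 0 = k0 Γ f := t00
    have c20 : g 0 2 0 = 0 := t20
    have d11 : g 1 0 1 - g 1 0 0 = k0 Γ f := by linear_combination c00 - t01 / 2 - t02 / 2
    have d01 : g 0 0 1 - g 0 0 0 = 0 := by linear_combination a3 - c20
    have d10 : g 1 0 0 = 0 := by linear_combination d01 - t01 / 2 + t02 / 2
    rw [hlin a 0 z, hlin a 1 z, hlin a 2 z]
    fin_cases a
    · simp only [Fin.zero_eta]
      refine ⟨?_, ?_, ?_⟩ <;> simp [eps]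
      · linear_combination c00 + z * d01
      · linear_combination a1 + Complex.I * c00 + z * a4 - z * Complex.I * d01
      · linear_combination c20 + z * a2 + z * c00
    · simp only [Fin.mk_one]
      refine ⟨?_, ?_, ?_⟩ <;> simp [eps]
      · linear_combination d10 + z * d11
      · linear_combination b1 + Complex.I * d10 + z * b4 - z * Complex.I * d11
      · linear_combination b3 - d11 + z * b2 + z * d10
  rw [G_vec_eq Γ z u hf (X := Xv (eps a z)) (contDiff_Xv _) (fun _ => bdot_conic_eps z a)]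
  simp only [bdot, Fin.sum_univ_three]
  obtain ⟨k00, k01, k02⟩ := key
  simp only [g] at k00 k01 k02
  rw [k00, k01, k02]
  ring

end

end Vale.Agent.P136.Full.Rig
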