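import Mathlib
import Vale.Agent.P136.Full.Rigidity.Columns
import Vale.Agent.P136.Full.Alg.Lame

/-!
# P136: the pointwise equations carried by the gauge
-/

open MeasureTheory Set Filter
open scoped ContDiff Topology

namespace Vale.Agent.P136.Full.Rig

noncomputable section

/-- `D μ / (2 μ)`. -/
def mh (M : Moduli) (θ : C3) (x : Space) : ℂ := Dth θ M.muC x / (2 * M.muC x)

/-- The scalar diagonal coefficient. -/
def beta (M : Moduli) (θ : C3) (x : Space) : ℂ :=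
  (Dth θ M.AC x - M.AC x * Dth θ M.muC x / M.muC x) / (M.AC x + M.muC x)

/-- The coefficient of the Hessian of `1 / μ`. -/
def cc (M : Moduli) (x : Space) : ℂ := M.muC x ^ 2 / (M.AC x + M.muC x)

theorem contDiff_mh (M : Moduli) (θ : C3) : ContDiff ℝ ∞ (mh M θ) :=
  contDiff_div (contDiff_Dth M.contDiff_muC θ) (contDiff_const.mul M.contDiff_muC)
    fun x => mul_ne_zero two_ne_zero (M.muC_ne x)

theorem contDiff_beta (M : Moduli) (θ : C3) : ContDiff ℝ ∞ (beta M θ) :=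
  contDiff_div ((contDiff_Dth M.contDiff_AC θ).sub
      (contDiff_div (M.contDiff_AC.mul (contDiff_Dth M.contDiff_muC θ)) M.contDiff_muC M.muC_ne))
    (M.contDiff_AC.add M.contDiff_muC) M.AC_add_muC_ne

theorem contDiff_cc (M : Moduli) : ContDiff ℝ ∞ (cc M) :=
  contDiff_div (M.contDiff_muC.pow 2) (M.contDiff_AC.add M.contDiff_muC) M.AC_add_muC_ne

variable {Ω : Set Space} {M₁ M₂ : Moduli}

/-- `√(μ₂ / μ₁)`. -/
def qC (M₁ M₂ : Moduli) (x : Space) : ℂ := M₂.sqC x / M₁.sqC x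

theorem qC_ne (x : Space) : qC M₁ M₂ x ≠ 0 := div_ne_zero (M₂.sqC_ne x) (M₁.sqC_ne x)

theorem contDiff_qC : ContDiff ℝ ∞ (qC M₁ M₂) :=
  contDiff_div M₂.contDiff_sqC M₁.contDiff_sqC M₁.sqC_ne

theorem qC_sq (x : Space) : qC M₁ M₂ x ^ 2 * M₁.muC x = M₂.muC x := by
  rw [← M₁.sqC_mul_sqC x, ← M₂.sqC_mul_sqC x, qC]
  have := M₁.sqC_ne x
  field_simp

theorem pd_qC (i : Fin 3) (x : Space) : pd i (qC M₁ M₂) x =
    qC M₁ M₂ x * (pd i M₂.muC x / M₂.muC x - pd i M₁.muC x / M₁.muC x) / 2 := by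
  rw [show qC M₁ M₂ = fun y => M₂.sqC y / M₁.sqC y from rfl]
  rw [pd_div i (Moduli.differentiableAt_of M₂.contDiff_sqC x) (Moduli.differentiableAt_of M₁.contDiff_sqC x)
      (M₁.sqC_ne x), Moduli.pd_sqC, Moduli.pd_sqC, ← M₁.sqC_mul_sqC x, ← M₂.sqC_mul_sqC x]
  have := M₁.sqC_ne x
  have := M₂.sqC_ne x
  field_simp

theorem Dth_qC (θ : C3) (x : Space) :
    Dth θ (qC M₁ M₂) x = qC M₁ M₂ x * (mh M₂ θ x - mh M₁ θ x) := by
  simp only [Dth, pd_qC, mh, Fin.sum_univ_three, smul_eq_mul]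
  ring

theorem qC_frontier (hF : FirstOrderEq Ω M₁ M₂) {x : Space} (hx : x ∈ frontier Ω) :
    qC M₁ M₂ x = 1 := by
  have e : M₂.sqC x = M₁.sqC x := by simp [Moduli.sqC, Moduli.sq, (hF x hx).2.1]
  rw [qC, e, div_self (M₁.sqC_ne x)]

theorem I_parts (hΩ : IsOpen Ω) (hb : Bornology.IsBounded Ω) (θ : C3) {f g : Space → ℂ}
    (hf : ContDiff ℝ ∞ f) (hg : ContDiff ℝ ∞ g) (h0 : ∀ x ∈ frontier Ω, f x * g x = 0) :
    I Ω (fun x => Dth θ f x * g x) = -I Ω (fun x => f x * Dth θ g x) := by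
  have h := I_Dth_zero hΩ hb θ (hf.mul hg) h0
  have e : Dth θ (fun x => f x * g x) = fun x => Dth θ f x * g x + f x * Dth θ g x :=
    funext fun x => Dth_mul θ (Moduli.differentiableAt_of hf x) (Moduli.differentiableAt_of hg x)
  rw [e, I_add hb ((contDiff_Dth hf θ).mul hg).continuous (hf.mul (contDiff_Dth hg θ)).continuous] at h
  linear_combination h

variable (Γ : Gauge Ω M₁ M₂)

theorem vec_split (z : ℂ) (u : C3) {f α δ : Space → ℂ} (hf : ContDiff ℝ ∞ f) (hα : ContDiff ℝ ∞ α)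
    (hδ : ContDiff ℝ ∞ δ) {w : C3} (hw : bdot (conic z) w = 0) :
    Γ.G z (vec u f) (fun x => (α x • w, δ x)) = Γ.G z (vec u fun x => α x * f x) (Xv w) := by
  rw [split_right Γ z (contDiff_vec u hf) hα hδ hw]
  have e : (fun x => δ x • vec u f x) = vecF fun x => (δ x * f x) • u := by
    funext x; simp [vec, vecF, smul_smul]
  rw [e, sca_vecF Γ z (V := fun x => (δ x * f x) • u) ((hδ.mul hf).smul contDiff_const), add_zero]
  congr 1
  funext x
  simp [vec, smul_smul]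

theorem sca_split (z : ℂ) {f α δ : Space → ℂ} (hf : ContDiff ℝ ∞ f) (hα : ContDiff ℝ ∞ α)
    (hδ : ContDiff ℝ ∞ δ) {w : C3} (hw : bdot (conic z) w = 0) :
    Γ.G z (sca f) (fun x => (α x • w, δ x)) =
      Γ.G z (sca fun x => α x * f x) (Xv w) + k1 Γ (fun x => δ x * f x) := by
  rw [split_right Γ z (contDiff_sca hf) hα hδ hw, ← G_sca_Xs Γ z (hδ.mul hf)]
  congr 1 <;> congr 1 <;> funext x <;> simp [sca]

variable (hΩ : IsOpen Ω) (hb : Bornology.IsBounded Ω) (hF : FirstOrderEq Ω M₁ M₂)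
include Γ hΩ hb hF

theorem k0_dir (z : ℂ) {Φ : Space → ℂ} (hΦ : ContDiff ℝ ∞ Φ) :
    k0 Γ (fun x => Dth (conic z) Φ x / qC M₁ M₂ x) = I Ω (Dth (conic z) Φ) := by
  set θ := conic z with hθ
  set φ : Space → ℂ := fun x => Φ x / qC M₁ M₂ x with hφdef
  have hφ : ContDiff ℝ ∞ φ := contDiff_div hΦ contDiff_qC qC_ne
  have dφ := Moduli.differentiableAt_of hφ
  set v := eps 1 z with hv
  have hθv : bdot θ v = 0 := bdot_conic_eps z 1
  have hvv : bdot v v = 1 := bdot_eps1 z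
  have g := Γ.green z (vec v φ) (Xv v) (contDiff_vec v hφ) (contDiff_Xv v) fun _ => hθv
  have hr : (∫ x in Ω, Dth θ (fun y => dot4 (vec v φ y) (Xv v y)) x) = I Ω (Dth θ φ) := by
    have e : (fun y => dot4 (vec v φ y) (Xv v y)) = φ := by
      funext y; simp [dot4, vec, Xv, bdot_smul_left, hvv]
    rw [e]; rfl
  have e1 : (fun x => Dth θ (vec v φ) x + M₁.amatT θ x (vec v φ x)) =
      vec v fun x => Dth θ φ x - mh M₁ θ x * φ x := by
    funext x
    have hd : Dth θ (vec v φ) x = (Dth θ φ x • v, 0) := by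
      rw [show vec v φ = fun y => φ y • ((v, 0) : Amp) by funext y; simp [vec]]
      rw [Dth_smul θ (dφ x) (differentiableAt_const _)]
      simp [Dth, pd_const]
    rw [hd]
    simp only [Moduli.amatT, vec, bdot_smul_right, hθv, mul_zero, zero_div, zero_smul, sub_zero,
      add_zero, neg_zero, Prod.mk_add_mk, mh, sub_smul, smul_smul, neg_mul, neg_smul,
      ← sub_eq_add_neg]
  set γ : Space → ℂ := fun x => bdot (grad M₂.muC x) v / (2 * M₂.muC x) with hγdef
  have hγ : ContDiff ℝ ∞ γ := contDiff_div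
    (ContDiff.sum fun i _ => (contDiff_pd M₂.contDiff_muC i).mul contDiff_const)
    (contDiff_const.mul M₂.contDiff_muC) fun x => mul_ne_zero two_ne_zero (M₂.muC_ne x)
  set δ : Space → ℂ := fun x => -(M₂.muC x ^ 2 * bdot v (hessVec M₂.mC x θ) / (M₂.AC x + M₂.muC x))
    with hδdef
  have hδ : ContDiff ℝ ∞ δ := (contDiff_div ((M₂.contDiff_muC.pow 2).mul
    (ContDiff.sum fun i _ => contDiff_const.mul ((contDiff_pi.1 (contDiff_hessVec M₂.contDiff_mC θ)) i)))
    (M₂.contDiff_AC.add M₂.contDiff_muC) M₂.AC_add_muC_ne).neg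
  have e2 : (fun x => Dth θ (Xv v) x - M₂.amat θ x (Xv v x)) =
      (fun x => ((mh M₂ θ x • v, 0) : Amp)) + fun x => (γ x • θ, δ x) := by
    funext x
    have hX0 : ∀ i : Fin 3, pd i (Xv v) x = 0 := fun i => pd_const i ((v, 0) : Amp) x
    rw [show Dth θ (Xv v) x = 0 by simp [Dth, hX0], zero_sub]
    refine Prod.ext ?_ ?_
    · simp [Xv, Moduli.amat, mh, hγdef, neg_smul]; abel
    · simp [Xv, Moduli.amat, hδdef]
  have hm := contDiff_mh M₂ θ
  rw [e1, e2, vec_eps Γ 1 z v ((contDiff_Dth hφ θ).sub ((contDiff_mh M₁ θ).mul hφ)),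
    Γ.add_right z (vec v φ) (fun x => ((mh M₂ θ x • v, 0) : Amp)) (fun x => (γ x • θ, δ x))
      (contDiff_vec v hφ) ((hm.smul contDiff_const).prodMk contDiff_const)
      ((hγ.smul contDiff_const).prodMk hδ) (fun x => by show bdot θ (_ • v) = 0; rw [bdot_smul_right, hθv, mul_zero])
      (fun x => by
        show bdot θ (_ • θ) = 0
        rw [bdot_smul_right, show bdot θ θ = 0 from bdot_conic_conic z, mul_zero]),
    vec_split Γ z v (δ := fun _ => 0) hφ hm contDiff_const hθv,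
    vec_split Γ z v hφ hγ hδ (bdot_conic_conic z),
    vec_eps Γ 1 z v (hm.mul hφ), vec_theta Γ z v (hγ.mul hφ), ← hv, hvv, hθv, one_mul, one_mul,
    zero_mul, add_zero, ← k0_add Γ ((contDiff_Dth hφ θ).sub ((contDiff_mh M₁ θ).mul hφ)) (hm.mul hφ),
    hr] at g
  have e3 : (fun x => Dth θ φ x - mh M₁ θ x * φ x + mh M₂ θ x * φ x) =
      fun x => Dth θ Φ x / qC M₁ M₂ x := by
    funext x
    have h := Dth_mul θ (dφ x) (Moduli.differentiableAt_of (contDiff_qC (M₁ := M₁) (M₂ := M₂)) x)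
    have e : (fun y => φ y * qC M₁ M₂ y) = Φ := funext fun y => div_mul_cancel₀ _ (qC_ne y)
    rw [e, Dth_qC] at h
    rw [h]
    have := qC_ne (M₁ := M₁) (M₂ := M₂) x
    field_simp
    ring
  rw [e3] at g
  rw [g]
  have e4 : I Ω (Dth θ φ) - I Ω (Dth θ Φ) = 0 := by
    rw [← I_sub hb (contDiff_Dth hφ θ).continuous (contDiff_Dth hΦ θ).continuous]
    rw [show (fun x => Dth θ φ x - Dth θ Φ x) = Dth θ (fun y => φ y - Φ y) from
      funext fun x => (Dth_sub θ (dφ x) (Moduli.differentiableAt_of hΦ x)).symm]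
    exact I_Dth_zero hΩ hb θ (hφ.sub hΦ) fun x hx => by simp [hφdef, qC_frontier hF hx]
  exact sub_eq_zero.1 e4

theorem k0_eq {f : Space → ℂ} (hf : ContDiff ℝ ∞ f) :
    k0 Γ f = I Ω (fun x => qC M₁ M₂ x * f x) := by
  set Φ := prim fun x => qC M₁ M₂ x * f x with hΦdef
  have hΦ : ContDiff ℝ ∞ Φ := contDiff_prim (contDiff_qC.mul hf)
  have hp : ∀ i, ContDiff ℝ ∞ fun x => pd i Φ x / qC M₁ M₂ x := fun i =>
    contDiff_div (contDiff_pd hΦ i) contDiff_qC qC_ne
  have h : ∀ z, bdot (conic z)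
      (fun i => k0 Γ (fun x => pd i Φ x / qC M₁ M₂ x) - I Ω (pd i Φ)) = 0 := by
    intro z
    have h := k0_dir Γ hΩ hb hF z hΦ
    have e : (fun x => Dth (conic z) Φ x / qC M₁ M₂ x) = fun x =>
        conic z 0 * (pd 0 Φ x / qC M₁ M₂ x) + conic z 1 * (pd 1 Φ x / qC M₁ M₂ x) +
          conic z 2 * (pd 2 Φ x / qC M₁ M₂ x) := by
      funext x; simp only [Dth, Fin.sum_univ_three, smul_eq_mul]; ring
    have e' : Dth (conic z) Φ = fun x =>
        conic z 0 * pd 0 Φ x + conic z 1 * pd 1 Φ x + conic z 2 * pd 2 Φ x := by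
      funext x; simp only [Dth, Fin.sum_univ_three, smul_eq_mul]
    have c := fun i => (contDiff_pd hΦ i).continuous
    rw [e, k0_add Γ ((contDiff_const.mul (hp 0)).add (contDiff_const.mul (hp 1)))
        (contDiff_const.mul (hp 2)), k0_add Γ (contDiff_const.mul (hp 0)) (contDiff_const.mul (hp 1)),
      k0_smul Γ _ (hp 0), k0_smul Γ _ (hp 1), k0_smul Γ _ (hp 2), e',
      I_add (f := fun x => conic z 0 * pd 0 Φ x + conic z 1 * pd 1 Φ x) (g := fun x => conic z 2 * pd 2 Φ x) hb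
        ((continuous_const.mul (c 0)).add (continuous_const.mul (c 1))) (continuous_const.mul (c 2)),
      I_add (f := fun x => conic z 0 * pd 0 Φ x) (g := fun x => conic z 1 * pd 1 Φ x) hb
        (continuous_const.mul (c 0)) (continuous_const.mul (c 1))] at h
    simp only [I, integral_const_mul] at h
    simp only [bdot, Fin.sum_univ_three, I]
    linear_combination h
  have h0 := sub_eq_zero.1 (linear_conic h 0)
  have e0 : (fun x => pd 0 Φ x / qC M₁ M₂ x) = f := funext fun x => by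
    rw [hΦdef, pd_prim (contDiff_qC.mul hf), mul_div_cancel_left₀ _ (qC_ne x)]
  rw [e0] at h0
  rw [h0]
  exact I_congr fun x => pd_prim (contDiff_qC.mul hf) x

theorem k1_eq {f : Space → ℂ} (hf : ContDiff ℝ ∞ f) :
    k1 Γ f = I Ω (fun x => qC M₁ M₂ x * (rat M₁ M₂ x * f x)) := by
  rw [← k0_eq Γ hΩ hb hF (contDiff_rat.mul hf)]
  unfold k0
  congr 1
  funext x
  rw [mul_div_cancel_left₀ _ (rat_ne x)]

theorem vecF_theta (z : ℂ) {V : Space → C3} (hV : ContDiff ℝ ∞ V) :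
    Γ.G z (vecF V) (Xv (conic z)) = I Ω (fun x => qC M₁ M₂ x * bdot (V x) (conic z)) := by
  have hc : ∀ i, ContDiff ℝ ∞ fun x => V x i := fun i => (contDiff_apply ℝ ℂ i).comp hV
  have c : ∀ i, Continuous fun x => conic z i * (qC M₁ M₂ x * V x i) := fun i =>
    continuous_const.mul (contDiff_qC.mul (hc i)).continuous
  rw [G_vecF_eq Γ z hV (X := Xv (conic z)) (contDiff_Xv _) (fun _ => bdot_conic_conic z)]
  simp only [vec_theta Γ z _ (hc _), k0_eq Γ hΩ hb hF (hc _), Fin.sum_univ_three]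
  simp only [show ∀ i, bdot (conic z) (Pi.single i 1) = conic z i from fun i => by simp [bdot, Pi.single_apply]]
  simp only [I, ← integral_const_mul]
  rw [show (fun x => qC M₁ M₂ x * bdot (V x) (conic z)) = fun x => conic z 0 * (qC M₁ M₂ x * V x 0) +
      conic z 1 * (qC M₁ M₂ x * V x 1) + conic z 2 * (qC M₁ M₂ x * V x 2) by
    funext x; simp [bdot, Fin.sum_univ_three]; ring]
  exact ((I_add hb ((c 0).add (c 1)) (c 2)).trans
    (congrArg (· + _) (I_add hb (c 0) (c 1)))).symm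

/-- The scalar-vector component. -/
theorem sca_theta (z : ℂ) {f : Space → ℂ} (hf : ContDiff ℝ ∞ f) :
    Γ.G z (sca f) (Xv (conic z)) =
      I Ω (fun x => f x * (2 * M₁.muC x * Dth (conic z) (qC M₁ M₂) x / M₁.AC x)) := by
  obtain ⟨u, hu⟩ := exists_bdot_ne z
  set θ := conic z with hθ
  set s := bdot θ u with hs
  set φ : Space → ℂ := fun x => 2 * M₁.muC x * f x / M₁.AC x with hφdef
  have hφ : ContDiff ℝ ∞ φ :=
    contDiff_div ((contDiff_const.mul M₁.contDiff_muC).mul hf) M₁.contDiff_AC M₁.AC_ne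
  have dφ := Moduli.differentiableAt_of hφ
  have hq : ContDiff ℝ ∞ (qC M₁ M₂) := contDiff_qC
  have hθθ : bdot θ θ = 0 := bdot_conic_conic z
  have g := Γ.green z (vec u φ) (Xv θ) (contDiff_vec u hφ) (contDiff_Xv θ) fun _ => hθθ
  have hr : (∫ x in Ω, Dth θ (fun y => dot4 (vec u φ y) (Xv θ y)) x) = s * I Ω (Dth θ φ) := by
    have e : (fun y => dot4 (vec u φ y) (Xv θ y)) = fun y => s • φ y := by
      funext y; simp [dot4, vec, Xv, bdot_smul_left, hs, bdot_comm u θ, mul_comm]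
    rw [e, show (∫ x in Ω, Dth θ (fun y => s • φ y) x) = ∫ x in Ω, s * Dth θ φ x from
      I_congr fun x => Dth_const_smul θ s (dφ x)]
    exact integral_const_mul s _
  set V : Space → C3 := fun x => (Dth θ φ x - mh M₁ θ x * φ x) • u -
    (φ x * s / (2 * M₁.muC x)) • grad M₁.muC x with hVdef
  have hV : ContDiff ℝ ∞ V := (((contDiff_Dth hφ θ).sub ((contDiff_mh M₁ θ).mul hφ)).smul contDiff_const).sub
    ((contDiff_div (hφ.mul contDiff_const) (contDiff_const.mul M₁.contDiff_muC)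
      fun x => mul_ne_zero two_ne_zero (M₁.muC_ne x)).smul (contDiff_grad M₁.contDiff_muC))
  have e1 : (fun x => Dth θ (vec u φ) x + M₁.amatT θ x (vec u φ x)) =
      vecF V + fun x => (-s) • sca f x := by
    funext x
    have hd : Dth θ (vec u φ) x = (Dth θ φ x • u, 0) := by
      rw [show vec u φ = fun y => φ y • ((u, 0) : Amp) by funext y; simp [vec]]
      rw [Dth_smul θ (dφ x) (differentiableAt_const _)]
      simp [Dth, pd_const]
    rw [hd]
    refine Prod.ext ?_ ?_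
    · simp only [Moduli.amatT, vec, bdot_smul_right, ← hs, mul_zero, zero_div, zero_smul, add_zero,
        Prod.fst_add, Pi.add_apply, vecF, sca, Prod.smul_fst, smul_zero, hVdef, mh, sub_smul, smul_smul]
      funext i
      simp only [Pi.add_apply, Pi.sub_apply, Pi.smul_apply, smul_eq_mul]
      ring
    · have := M₁.muC_ne x; have := M₁.AC_ne x
      simp only [Moduli.amatT, vec, bdot_smul_right, ← hs, mul_zero, zero_div, sub_zero,
        Prod.snd_add, Pi.add_apply, vecF, sca, Prod.smul_snd, smul_eq_mul, hφdef]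
      field_simp
  set δ : Space → ℂ := fun x => -(M₂.muC x ^ 2 * bdot θ (hessVec M₂.mC x θ) / (M₂.AC x + M₂.muC x))
    with hδdef
  have hδ : ContDiff ℝ ∞ δ := (contDiff_div ((M₂.contDiff_muC.pow 2).mul
    (ContDiff.sum fun i _ => contDiff_const.mul ((contDiff_pi.1 (contDiff_hessVec M₂.contDiff_mC θ)) i)))
    (M₂.contDiff_AC.add M₂.contDiff_muC) M₂.AC_add_muC_ne).neg
  have hm2 : ContDiff ℝ ∞ fun x => 2 * mh M₂ θ x := contDiff_const.mul (contDiff_mh M₂ θ)
  have e2 : (fun x => Dth θ (Xv θ) x - M₂.amat θ x (Xv θ x)) =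
      fun x => ((2 * mh M₂ θ x) • θ, δ x) := by
    funext x
    have hX0 : ∀ i : Fin 3, pd i (Xv θ) x = 0 := fun i => pd_const i ((θ, 0) : Amp) x
    rw [show Dth θ (Xv θ) x = 0 by simp [Dth, hX0], zero_sub]
    refine Prod.ext ?_ ?_
    · simp only [Xv, Moduli.amat, Prod.fst_neg, grad_bdot, mh]
      funext i
      simp only [Pi.neg_apply, Pi.sub_apply, Pi.smul_apply, smul_eq_mul, mul_zero, zero_add]
      ring
    · simp [Xv, Moduli.amat, hδdef]
  rw [e1, e2, Γ.add_left z (vecF V) (fun x => (-s) • sca f x) (Xv θ) (contDiff_vecF hV)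
      (ContDiff.smul (f := fun _ : Space => -s) (g := sca f) contDiff_const (contDiff_sca hf))
      (contDiff_Xv θ) (fun _ => hθθ),
    show Γ.G z (fun x => (-s) • sca f x) (Xv θ) = -s * Γ.G z (sca f) (Xv θ) from
      Γ.smul_left z (-s) (sca f) (Xv θ) (contDiff_sca hf) (contDiff_Xv θ) fun _ => hθθ,
    vecF_theta Γ hΩ hb hF z hV, vec_split Γ z u hφ hm2 hδ hθθ, vec_theta Γ z u (hm2.mul hφ),
    k0_eq Γ hΩ hb hF (hm2.mul hφ), ← hs, hr] at g
  have hW : ∀ x, qC M₁ M₂ x * bdot (V x) θ =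
      s * (qC M₁ M₂ x * (Dth θ φ x - 2 * mh M₁ θ x * φ x)) := by
    intro x
    rw [hVdef]
    simp only [bdot_comm _ θ, bdot_sub_right, bdot_smul_right, ← hs]
    rw [bdot_comm θ (grad M₁.muC x), grad_bdot, mh]
    have := M₁.muC_ne x
    field_simp
    ring
  rw [I_congr hW, show I Ω (fun x => s * (qC M₁ M₂ x * (Dth θ φ x - 2 * mh M₁ θ x * φ x))) =
    s * I Ω (fun x => qC M₁ M₂ x * (Dth θ φ x - 2 * mh M₁ θ x * φ x)) from integral_const_mul s _] at g
  have ca : Continuous fun x => qC M₁ M₂ x * (Dth θ φ x - 2 * mh M₁ θ x * φ x) :=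
    (hq.mul ((contDiff_Dth hφ θ).sub ((contDiff_const.mul (contDiff_mh M₁ θ)).mul hφ))).continuous
  have cb : Continuous fun x => qC M₁ M₂ x * (2 * mh M₂ θ x * φ x) :=
    (hq.mul (hm2.mul hφ)).continuous
  have hL : Γ.G z (sca f) (Xv θ) = I Ω (fun x => qC M₁ M₂ x * (Dth θ φ x - 2 * mh M₁ θ x * φ x)) +
      I Ω (fun x => qC M₁ M₂ x * (2 * mh M₂ θ x * φ x)) - I Ω (Dth θ φ) := by
    apply mul_left_cancel₀ hu
    linear_combination -g
  have cq : Continuous fun x => φ x * Dth θ (qC M₁ M₂) x := (hφ.mul (contDiff_Dth hq θ)).continuous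
  have cd : Continuous fun x => Dth θ (fun y => (qC M₁ M₂ y - 1) * φ y) x :=
    (contDiff_Dth ((hq.sub contDiff_const).mul hφ) θ).continuous
  rw [hL, ← I_add hb ca cb, ← I_sub (f := fun x => qC M₁ M₂ x * (Dth θ φ x - 2 * mh M₁ θ x * φ x) +
      qC M₁ M₂ x * (2 * mh M₂ θ x * φ x)) hb (ca.add cb) (contDiff_Dth hφ θ).continuous,
    I_congr (g := fun x => φ x * Dth θ (qC M₁ M₂) x + Dth θ (fun y => (qC M₁ M₂ y - 1) * φ y) x)
      (fun x => by
        rw [Dth_mul θ ((Moduli.differentiableAt_of hq x).sub_const 1) (dφ x),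
          Dth_sub θ (Moduli.differentiableAt_of hq x) (differentiableAt_const 1)]
        simp only [Dth_qC, show Dth θ (fun _ : Space => (1 : ℂ)) x = 0 by simp [Dth, pd_const]]
        ring),
    I_add hb cq cd, I_Dth_zero hΩ hb θ ((hq.sub contDiff_const).mul hφ)
      (fun x hx => by simp [qC_frontier hF hx]), add_zero]
  refine I_congr fun x => ?_
  simp only [hφdef]
  ring

theorem eq_rat (z : ℂ) : ∀ x ∈ Ω, Dth (conic z) (rat M₁ M₂) x =
    rat M₁ M₂ x * (beta M₂ (conic z) x - beta M₁ (conic z) x) := by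
  set θ := conic z with hθ
  have hq : ContDiff ℝ ∞ (qC M₁ M₂) := contDiff_qC
  have hR : ContDiff ℝ ∞ (rat M₁ M₂) := contDiff_rat
  set P : Space → ℂ := fun x => qC M₁ M₂ x * rat M₁ M₂ x with hPdef
  have hP : ContDiff ℝ ∞ P := hq.mul hR
  set F : Space → ℂ := fun x => -Dth θ P x + P x * (beta M₂ θ x - beta M₁ θ x) +
    rat M₁ M₂ x * Dth θ (qC M₁ M₂) x with hFdef
  have hb1 := contDiff_beta M₁ θ
  have hb2 := contDiff_beta M₂ θ
  have hFs : ContDiff ℝ ∞ F :=
    ((contDiff_Dth hP θ).neg.add (hP.mul (hb2.sub hb1))).add (hR.mul (contDiff_Dth hq θ))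
  suffices h : ∀ x ∈ Ω, F x = 0 by
    intro x hx
    have h1 := h x hx
    simp only [hFdef, hPdef] at h1
    rw [Dth_mul θ (Moduli.differentiableAt_of hq x) (Moduli.differentiableAt_of hR x)] at h1
    apply mul_left_cancel₀ (qC_ne (M₁ := M₁) (M₂ := M₂) x)
    linear_combination -h1
  refine zero_of_test hΩ hFs.continuous fun φ hφ _ hsupp => ?_
  have dφ := Moduli.differentiableAt_of hφ
  have hφ0 : ∀ x ∈ frontier Ω, φ x = 0 := fun x hx =>
    image_eq_zero_of_notMem_tsupport fun h => hx.2 (by rw [hΩ.interior_eq]; exact hsupp h)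
  have g := Γ.green z (sca φ) Xs (contDiff_sca hφ) contDiff_Xs (perp_Xs z)
  have hr : (∫ x in Ω, Dth θ (fun y => dot4 (sca φ y) (Xs y)) x) = I Ω (Dth θ φ) := by
    rw [show (fun y => dot4 (sca φ y) (Xs y)) = φ by funext y; simp [dot4, sca, Xs, bdot_zero_left]]
    rfl
  have hd : ∀ x, Dth θ (sca φ) x = (0, Dth θ φ x) := fun x => by
    rw [show sca φ = fun y => φ y • ((0, 1) : Amp) by funext y; simp [sca]]
    rw [Dth_smul θ (dφ x) (differentiableAt_const _)]
    simp [Dth, pd_const]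
  have e1 : (fun x => Dth θ (sca φ) x + M₁.amatT θ x (sca φ x)) = fun x =>
      ((cc M₁ x * φ x) • hessVec M₁.mC x θ, Dth θ φ x - beta M₁ θ x * φ x) := by
    funext x
    rw [hd]
    refine Prod.ext ?_ ?_
    · simp [Moduli.amatT, sca, bdot_zero_right, cc]
      congr 1
      ring
    · simp [Moduli.amatT, sca, bdot_zero_right, beta]
      ring
  have hα : ContDiff ℝ ∞ fun x => M₂.AC x / (2 * M₂.muC x) :=
    contDiff_div M₂.contDiff_AC (contDiff_const.mul M₂.contDiff_muC)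
      fun x => mul_ne_zero two_ne_zero (M₂.muC_ne x)
  have e2 : (fun x => Dth θ Xs x - M₂.amat θ x (Xs x)) =
      fun x => ((M₂.AC x / (2 * M₂.muC x)) • θ, beta M₂ θ x) := by
    funext x
    have hX0 : ∀ i : Fin 3, pd i Xs x = 0 := fun i => pd_const i ((0, 1) : Amp) x
    rw [show Dth θ Xs x = 0 by simp [Dth, hX0], zero_sub]
    refine Prod.ext ?_ ?_
    · simp [Xs, Moduli.amat, bdot_zero_right]
    · simp [Xs, Moduli.amat, bdot_zero_left, beta]
      ring
  rw [e1, e2, G_Xs Γ z (V := fun x => (cc M₁ x * φ x) • hessVec M₁.mC x θ)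
      (f := fun x => Dth θ φ x - beta M₁ θ x * φ x)
      (((contDiff_cc M₁).mul hφ).smul (contDiff_hessVec M₁.contDiff_mC θ))
      ((contDiff_Dth hφ θ).sub (hb1.mul hφ)),
    sca_split Γ z hφ hα hb2 (bdot_conic_conic z), sca_theta Γ hΩ hb hF z (hα.mul hφ),
    k1_eq Γ hΩ hb hF ((contDiff_Dth hφ θ).sub (hb1.mul hφ)), k1_eq Γ hΩ hb hF (hb2.mul hφ), hr] at g
  have c1 : Continuous fun x => qC M₁ M₂ x * (rat M₁ M₂ x * (Dth θ φ x - beta M₁ θ x * φ x)) :=
    (hq.mul (hR.mul ((contDiff_Dth hφ θ).sub (hb1.mul hφ)))).continuous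
  have c2 : Continuous fun x => M₂.AC x / (2 * M₂.muC x) * φ x *
      (2 * M₁.muC x * Dth θ (qC M₁ M₂) x / M₁.AC x) :=
    ((hα.mul hφ).mul (contDiff_div ((contDiff_const.mul M₁.contDiff_muC).mul (contDiff_Dth hq θ))
      M₁.contDiff_AC M₁.AC_ne)).continuous
  have c3 : Continuous fun x => qC M₁ M₂ x * (rat M₁ M₂ x * (beta M₂ θ x * φ x)) :=
    (hq.mul (hR.mul (hb2.mul hφ))).continuous
  rw [← I_add hb c2 c3, ← I_add (g := fun x => _ + _) hb c1 (c2.add c3),
    I_congr (g := fun x => φ x * F x + (φ x * Dth θ P x + Dth θ φ x * P x)) (fun x => by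
      simp only [hFdef, hPdef, rat]; ring),
    I_add hb (hφ.mul hFs).continuous
      ((hφ.mul (contDiff_Dth hP θ)).add ((contDiff_Dth hφ θ).mul hP)).continuous,
    I_add hb (hφ.mul (contDiff_Dth hP θ)).continuous ((contDiff_Dth hφ θ).mul hP).continuous,
    I_parts hΩ hb θ hφ hP (fun x hx => by simp [hφ0 x hx]), I_Dth_zero hΩ hb θ hφ hφ0] at g
  linear_combination g

theorem eq_hess (z : ℂ) : ∀ x ∈ Ω,
    qC M₁ M₂ x * cc M₁ x * Dth (conic z) (Dth (conic z) M₁.mC) x -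
      Dth (conic z) (fun y => 2 * M₁.muC y * Dth (conic z) (qC M₁ M₂) y / M₁.AC y) x +
      (2 * mh M₂ (conic z) x - beta M₁ (conic z) x) *
        (2 * M₁.muC x * Dth (conic z) (qC M₁ M₂) x / M₁.AC x) -
      qC M₁ M₂ x * rat M₁ M₂ x * cc M₂ x * Dth (conic z) (Dth (conic z) M₂.mC) x = 0 := by
  set θ := conic z with hθ
  have hθθ : bdot θ θ = 0 := bdot_conic_conic z
  have hq : ContDiff ℝ ∞ (qC M₁ M₂) := contDiff_qC
  have hR : ContDiff ℝ ∞ (rat M₁ M₂) := contDiff_rat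
  set l : Space → ℂ := fun y => 2 * M₁.muC y * Dth θ (qC M₁ M₂) y / M₁.AC y with hldef
  have hl : ContDiff ℝ ∞ l :=
    contDiff_div ((contDiff_const.mul M₁.contDiff_muC).mul (contDiff_Dth hq θ)) M₁.contDiff_AC M₁.AC_ne
  have hb1 := contDiff_beta M₁ θ
  have hDD := fun M : Moduli => contDiff_Dth (contDiff_Dth M.contDiff_mC θ) θ
  set F : Space → ℂ := fun x => qC M₁ M₂ x * cc M₁ x * Dth θ (Dth θ M₁.mC) x - Dth θ l x +
    (2 * mh M₂ θ x - beta M₁ θ x) * l x -
      qC M₁ M₂ x * rat M₁ M₂ x * cc M₂ x * Dth θ (Dth θ M₂.mC) x with hFdef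
  have hm2 : ContDiff ℝ ∞ fun x => 2 * mh M₂ θ x := contDiff_const.mul (contDiff_mh M₂ θ)
  have hFs : ContDiff ℝ ∞ F :=
    ((((hq.mul (contDiff_cc M₁)).mul (hDD M₁)).sub (contDiff_Dth hl θ)).add ((hm2.sub hb1).mul hl)).sub
      (((hq.mul hR).mul (contDiff_cc M₂)).mul (hDD M₂))
  suffices h : ∀ x ∈ Ω, F x = 0 from h
  refine zero_of_test hΩ hFs.continuous fun φ hφ _ hsupp => ?_
  have dφ := Moduli.differentiableAt_of hφ
  have hφ0 : ∀ x ∈ frontier Ω, φ x = 0 := fun x hx =>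
    image_eq_zero_of_notMem_tsupport fun h => hx.2 (by rw [hΩ.interior_eq]; exact hsupp h)
  have g := Γ.green z (sca φ) (Xv θ) (contDiff_sca hφ) (contDiff_Xv θ) fun _ => hθθ
  have hr : (∫ x in Ω, Dth θ (fun y => dot4 (sca φ y) (Xv θ y)) x) = 0 := by
    rw [show (fun y => dot4 (sca φ y) (Xv θ y)) = fun _ => 0 by
      funext y; simp [dot4, sca, Xv, bdot_zero_left]]
    simp [Dth, pd_const]
  have hd : ∀ x, Dth θ (sca φ) x = (0, Dth θ φ x) := fun x => by
    rw [show sca φ = fun y => φ y • ((0, 1) : Amp) by funext y; simp [sca]]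
    rw [Dth_smul θ (dφ x) (differentiableAt_const _)]
    simp [Dth, pd_const]
  have hV : ContDiff ℝ ∞ fun x => (cc M₁ x * φ x) • hessVec M₁.mC x θ :=
    ((contDiff_cc M₁).mul hφ).smul (contDiff_hessVec M₁.contDiff_mC θ)
  have hT : ContDiff ℝ ∞ fun x => Dth θ φ x - beta M₁ θ x * φ x :=
    (contDiff_Dth hφ θ).sub (hb1.mul hφ)
  have e1 : (fun x => Dth θ (sca φ) x + M₁.amatT θ x (sca φ x)) =
      vecF (fun x => (cc M₁ x * φ x) • hessVec M₁.mC x θ) +
        sca (fun x => Dth θ φ x - beta M₁ θ x * φ x) := by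
    funext x
    rw [hd]
    refine Prod.ext ?_ ?_
    · simp [Moduli.amatT, sca, vecF, bdot_zero_right, cc]
      congr 1
      ring
    · simp [Moduli.amatT, sca, vecF, bdot_zero_right, beta]
      ring
  set δ : Space → ℂ := fun x => -(cc M₂ x * Dth θ (Dth θ M₂.mC) x) with hδdef
  have hδ : ContDiff ℝ ∞ δ := ((contDiff_cc M₂).mul (hDD M₂)).neg
  have e2 : (fun x => Dth θ (Xv θ) x - M₂.amat θ x (Xv θ x)) =
      fun x => ((2 * mh M₂ θ x) • θ, δ x) := by
    funext x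
    have hX0 : ∀ i : Fin 3, pd i (Xv θ) x = 0 := fun i => pd_const i ((θ, 0) : Amp) x
    rw [show Dth θ (Xv θ) x = 0 by simp [Dth, hX0], zero_sub]
    refine Prod.ext ?_ ?_
    · simp only [Xv, Moduli.amat, Prod.fst_neg, grad_bdot, mh]
      funext i
      simp only [Pi.neg_apply, Pi.sub_apply, Pi.smul_apply, smul_eq_mul, mul_zero, zero_add]
      ring
    · simp [Xv, Moduli.amat, hδdef, cc, ← hess_quad θ M₂.mC M₂.contDiff_mC]
      ring
  rw [e1, e2, Γ.add_left z _ _ (Xv θ) (contDiff_vecF hV) (contDiff_sca hT) (contDiff_Xv θ)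
      (fun _ => hθθ), vecF_theta Γ hΩ hb hF z hV, sca_theta Γ hΩ hb hF z hT,
    sca_split Γ z hφ hm2 hδ hθθ, sca_theta Γ hΩ hb hF z (hm2.mul hφ),
    k1_eq Γ hΩ hb hF (hδ.mul hφ), hr] at g
  have c1 : Continuous fun x => qC M₁ M₂ x * bdot ((cc M₁ x * φ x) • hessVec M₁.mC x θ) θ := by
    simp only [bdot_comm _ θ, bdot_smul_right, hess_quad θ M₁.mC M₁.contDiff_mC]
    exact (hq.mul (((contDiff_cc M₁).mul hφ).mul (hDD M₁))).continuous
  have c2 : Continuous fun x => (Dth θ φ x - beta M₁ θ x * φ x) * l x := (hT.mul hl).continuous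
  have c3 : Continuous fun x => 2 * mh M₂ θ x * φ x * l x := ((hm2.mul hφ).mul hl).continuous
  have c4 : Continuous fun x => qC M₁ M₂ x * (rat M₁ M₂ x * (δ x * φ x)) :=
    (hq.mul (hR.mul (hδ.mul hφ))).continuous
  rw [← I_add hb c1 c2, ← I_add hb c3 c4, ← I_add (f := fun x => _ + _) (g := fun x => _ + _) hb (c1.add c2) (c3.add c4),
    I_congr (g := fun x => φ x * F x + (φ x * Dth θ l x + Dth θ φ x * l x)) (fun x => by
      simp only [hFdef, hδdef, bdot_comm _ θ, bdot_smul_right, hess_quad θ M₁.mC M₁.contDiff_mC]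
      simp only [hldef]
      ring),
    I_add hb (hφ.mul hFs).continuous
      ((hφ.mul (contDiff_Dth hl θ)).add ((contDiff_Dth hφ θ).mul hl)).continuous,
    I_add hb (hφ.mul (contDiff_Dth hl θ)).continuous ((contDiff_Dth hφ θ).mul hl).continuous,
    I_parts hΩ hb θ hφ hl (fun x hx => by simp [hφ0 x hx])] at g
  linear_combination g

end

end Vale.Agent.P136.Full.Rig
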