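import Mathlib
import Vale.Agent.P136.Full.Spec

/-!
# P136: a field with `‖DF‖ ≤ C ‖F‖` in a bounded open set, zero on the boundary, is zero
-/

open Set Filter Metric
open scoped ContDiff Topology

namespace Vale.Agent.P136.Full.Rig

noncomputable section

theorem meets_frontier {s Ω : Set Space} (hs : IsPreconnected s) (hΩ : IsOpen Ω) {a b : Space}
    (ha : a ∈ s) (haΩ : a ∈ Ω) (hb : b ∈ s) (hbΩ : b ∉ Ω) : ∃ y ∈ s, y ∈ frontier Ω := by
  by_contra h
  push Not at h
  have hsub : s ⊆ Ω ∪ (closure Ω)ᶜ := fun w hw => by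
    by_cases hwc : w ∈ closure Ω
    · left
      by_contra hwΩ
      exact h w hw ⟨hwc, fun hi => hwΩ (interior_subset hi)⟩
    · exact Or.inr hwc
  have hb' : b ∈ (closure Ω)ᶜ := (hsub hb).resolve_left hbΩ
  obtain ⟨w, -, hw1, hw2⟩ := hs Ω (closure Ω)ᶜ hΩ isClosed_closure.isOpen_compl hsub ⟨a, ha, haΩ⟩ ⟨b, hb, hb'⟩
  exact hw2 (subset_closure hw1)

theorem exists_segment {Ω : Set Space} (hΩ : IsOpen Ω) (hb : Bornology.IsBounded Ω) {x : Space}
    (hx : x ∈ Ω) : ∃ y ∈ frontier Ω, ∀ t ∈ Ico (0 : ℝ) 1, y + t • (x - y) ∈ closure Ω := by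
  have hne : (frontier Ω).Nonempty := by
    refine nonempty_frontier_iff.2 ⟨⟨x, hx⟩, fun h => ?_⟩
    rw [h] at hb
    exact NormedSpace.unbounded_univ ℝ Space hb
  have hc : IsCompact (frontier Ω) := hb.isCompact_closure.of_isClosed_subset isClosed_frontier
    frontier_subset_closure
  obtain ⟨y, hy, hmin⟩ := hc.exists_infDist_eq_dist hne x
  have hsub : ball x (dist x y) ⊆ Ω := by
    intro w hw
    by_contra hwΩ
    obtain ⟨v, hv, hvf⟩ := meets_frontier (convex_ball x (dist x y)).isPreconnected hΩ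
      (mem_ball_self (dist_nonneg.trans_lt (mem_ball.1 hw))) hx hw hwΩ
    have := infDist_le_dist_of_mem (x := x) hvf
    rw [hmin] at this
    rw [mem_ball, dist_comm] at hv
    linarith
  refine ⟨y, hy, fun t ht => ?_⟩
  rcases ht.1.eq_or_lt with h | h
  · subst h; simpa using frontier_subset_closure hy
  · refine subset_closure (hsub (mem_ball.2 ?_))
    rw [dist_eq_norm, show y + t • (x - y) - x = (1 - t) • (y - x) by module, norm_smul,
      Real.norm_of_nonneg (by linarith [ht.2]), dist_eq_norm, ← norm_sub_rev x y]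
    have hxy : x ≠ y := fun e => by
      rw [← e] at hy
      exact hy.2 (by rwa [hΩ.interior_eq])
    nlinarith [norm_pos_iff.2 (sub_ne_zero.2 hxy)]

theorem propagate {E : Type*} [NormedAddCommGroup E] [NormedSpace ℝ E] {Ω : Set Space}
    (hΩ : IsOpen Ω) (hb : Bornology.IsBounded Ω) {F : Space → E} (hF : ContDiff ℝ 1 F) {C : ℝ}
    (hC : ∀ x ∈ Ω, ∀ i : Fin 3, ‖fderiv ℝ F x (Pi.single i 1)‖ ≤ C * ‖F x‖)
    (h0 : ∀ y ∈ frontier Ω, F y = 0) : ∀ x ∈ Ω, F x = 0 := by
  intro x hx
  obtain ⟨y, hy, hseg⟩ := exists_segment hΩ hb hx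
  have hC' : ∀ p ∈ closure Ω, ∀ i : Fin 3, ‖fderiv ℝ F p (Pi.single i 1)‖ ≤ C * ‖F p‖ := by
    intro p hp i
    refine le_on_closure (fun q hq => hC q hq i) ?_ ?_ hp
    · exact (((hF.continuous_fderiv one_ne_zero).clm_apply continuous_const).norm).continuousOn
    · exact (continuous_const.mul hF.continuous.norm).continuousOn
  set K := C * ∑ i, |x i - y i| with hK
  let g : ℝ → E := fun t => F (y + t • (x - y))
  have hd : ∀ t, HasDerivAt g (fderiv ℝ F (y + t • (x - y)) (x - y)) t := fun t => by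
    have hl : HasDerivAt (fun s : ℝ => y + s • (x - y)) (x - y) t := by
      simpa using ((hasDerivAt_id t).smul_const (x - y)).const_add y
    exact ((hF.differentiable one_ne_zero) _).hasFDerivAt.comp_hasDerivAt t hl
  have hb2 : ∀ t ∈ Ico (0 : ℝ) 1,
      ‖fderiv ℝ F (y + t • (x - y)) (x - y)‖ ≤ K * ‖g t‖ + 0 := by
    intro t ht
    have e : x - y = ∑ i, (x i - y i) • (Pi.single i (1 : ℝ) : Space) := by
      funext j; simp [Pi.single_apply]
    conv_lhs => arg 1; arg 2; rw [e]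
    rw [map_sum, add_zero, hK, Finset.mul_sum, Finset.sum_mul]
    refine (norm_sum_le _ _).trans (Finset.sum_le_sum fun i _ => ?_)
    rw [map_smul, norm_smul, Real.norm_eq_abs]
    have := mul_le_mul_of_nonneg_left (hC' _ (hseg t ht) i) (abs_nonneg (x i - y i))
    linarith
  have := norm_le_gronwallBound_of_norm_deriv_right_le (f := g) (δ := 0) (K := K) (ε := 0)
    (fun t _ => (hd t).continuousAt.continuousWithinAt) (fun t _ => (hd t).hasDerivWithinAt)
    (by simp [g, h0 y hy]) hb2 1 (right_mem_Icc.2 zero_le_one)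
  rw [gronwallBound_ε0, zero_mul] at this
  simpa [g] using norm_le_zero_iff.1 this

/-- An isolated-zero argument: a field vanishing on the boundary has no invertible derivative
there. -/
theorem frontier_not_isolated {Ω : Set Space} (hΩ : SmoothDomain Ω) {z : Space}
    (hz : z ∈ frontier Ω) : ∃ᶠ y in 𝓝[≠] z, y ∈ frontier Ω := by
  obtain ⟨U, hUo, hzU, ρ, hρ, hρz, hU⟩ := hΩ.boundary z hz
  rw [frequently_nhdsWithin_iff, (nhds_basis_ball).frequently_iff]
  intro r hr
  obtain ⟨δ, hδ, hδU⟩ := Metric.isOpen_iff.1 hUo z hzU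
  set L := fderiv ℝ ρ z with hL
  obtain ⟨v, hv⟩ : ∃ v : Space, L v = 1 := by
    by_contra h
    push Not at h
    refine hρz (ContinuousLinearMap.ext fun w => ?_)
    by_contra hw
    simp only [zero_apply] at hw
    exact h ((L w)⁻¹ • w) (by rw [map_smul, smul_eq_mul, inv_mul_cancel₀ hw])
  obtain ⟨t, ht, htL⟩ : ∃ t : Space, t ≠ 0 ∧ L t = 0 := by
    have : ¬ Function.Injective L := fun h => by
      have := LinearMap.finrank_le_finrank_of_injective (f := (L : Space →ₗ[ℝ] ℝ)) h
      simp [Space] at this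
    obtain ⟨a, b, hab, hne⟩ : ∃ a b, L a = L b ∧ a ≠ b := by
      simpa [Function.Injective, not_forall] using this
    exact ⟨a - b, sub_ne_zero.2 hne, by rw [map_sub, hab, sub_self]⟩
  have hρ0 : ρ z = 0 := by
    refine le_antisymm ?_ ?_
    · have : z ∈ closure (Ω ∩ U) := by
        rw [_root_.mem_closure_iff]
        intro W hW hzW
        obtain ⟨w, hw, hwΩ⟩ := _root_.mem_closure_iff.1 hz.1 (W ∩ U) (hW.inter hUo) ⟨hzW, hzU⟩
        exact ⟨w, hw.1, hwΩ, hw.2⟩
      exact le_on_closure (fun w hw => (le_of_lt (hU ▸ hw).2)) hρ.continuous.continuousOn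
        continuousOn_const this
    · by_contra h
      push Not at h
      have hmem : z ∈ Ω ∩ U := by rw [hU]; exact ⟨hzU, h⟩
      exact hz.2 (by rw [hΩ.isOpen.interior_eq]; exact hmem.1)
  have hneg : ∀ s : ℝ, 0 < s → ∀ w : Space, L w = -1 → ∀ᶠ ε in 𝓝[>] (0 : ℝ), ρ (z + ε • w) < 0 := by
    intro s _ w hw
    have hd : HasDerivAt (fun ε : ℝ => ρ (z + ε • w)) (-1) 0 := by
      have hl : HasDerivAt (fun ε : ℝ => z + ε • w) w 0 := by
        simpa using ((hasDerivAt_id (0 : ℝ)).smul_const w).const_add z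
      rw [← hw]
      exact HasFDerivAt.comp_hasDerivAt (0 : ℝ)
        (by simpa using (hρ.differentiable (by simp) z).hasFDerivAt) hl
    have hlim := (hasDerivAt_iff_tendsto_slope.1 hd).mono_left
      (nhdsWithin_mono _ fun a (ha : (0 : ℝ) < a) => ha.ne')
    filter_upwards [hlim.eventually (gt_mem_nhds (by norm_num : (-1 : ℝ) < 0)),
      self_mem_nhdsWithin] with ε hε (hpos : 0 < ε)
    simp only [slope, zero_smul, add_zero, hρ0, vsub_eq_sub, sub_zero, smul_eq_mul] at hε
    by_contra h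
    push Not at h
    linarith [mul_nonneg (inv_nonneg.2 hpos.le) h]
  have hpos : ∀ w : Space, L w = 1 → ∀ᶠ ε in 𝓝[>] (0 : ℝ), 0 < ρ (z + ε • w) := by
    intro w hw
    have hd : HasDerivAt (fun ε : ℝ => ρ (z + ε • w)) 1 0 := by
      have hl : HasDerivAt (fun ε : ℝ => z + ε • w) w 0 := by
        simpa using ((hasDerivAt_id (0 : ℝ)).smul_const w).const_add z
      rw [← hw]
      exact HasFDerivAt.comp_hasDerivAt (0 : ℝ)
        (by simpa using (hρ.differentiable (by simp) z).hasFDerivAt) hl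
    have hlim := (hasDerivAt_iff_tendsto_slope.1 hd).mono_left
      (nhdsWithin_mono _ fun a (ha : (0 : ℝ) < a) => ha.ne')
    filter_upwards [hlim.eventually (lt_mem_nhds (by norm_num : (0 : ℝ) < 1)),
      self_mem_nhdsWithin] with ε hε (hp : 0 < ε)
    simp only [slope, zero_smul, add_zero, hρ0, vsub_eq_sub, sub_zero, smul_eq_mul] at hε
    exact pos_of_mul_pos_right hε (inv_nonneg.2 hp.le)
  set M := ‖t‖ + ‖v‖ + 1 with hM
  have hM0 : 0 < M := by positivity
  obtain ⟨ε, ⟨hn, hp⟩, hε⟩ := (((hneg 1 one_pos (t - v) (by rw [map_sub, htL, hv]; norm_num)).and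
    (hpos (t + v) (by rw [map_add, htL, hv]; norm_num))).and
    (Ioo_mem_nhdsGT (show 0 < min r δ / M by positivity))).exists
  have hin : ∀ w : Space, ‖w‖ ≤ ‖t‖ + ‖v‖ → z + ε • w ∈ ball z (min r δ) := by
    intro w hw
    rw [mem_ball, dist_eq_norm, add_sub_cancel_left, norm_smul, Real.norm_of_nonneg hε.1.le]
    have := mul_le_mul_of_nonneg_left hw hε.1.le
    have := (lt_div_iff₀ hM0).1 hε.2
    nlinarith [hε.1]
  have ha := hin (t - v) (norm_sub_le _ _)
  have hb := hin (t + v) (norm_add_le _ _)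
  have hrδ : ball z (min r δ) ⊆ ball z r := ball_subset_ball (min_le_left _ _)
  have hδ' : ball z (min r δ) ⊆ U := (ball_subset_ball (min_le_right _ _)).trans hδU
  have haΩ : z + ε • (t - v) ∈ Ω := by
    have : z + ε • (t - v) ∈ Ω ∩ U := by rw [hU]; exact ⟨hδ' ha, hn⟩
    exact this.1
  have hbΩ : z + ε • (t + v) ∉ Ω := fun h => by
    have h2 : z + ε • (t + v) ∈ Ω ∩ U := ⟨h, hδ' hb⟩
    rw [hU] at h2
    linarith [h2.2]
  obtain ⟨y, hy, hyf⟩ := meets_frontier
    (convex_segment (𝕜 := ℝ) (z + ε • (t - v)) (z + ε • (t + v))).isPreconnected hΩ.isOpen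
    (left_mem_segment ℝ _ _) haΩ (right_mem_segment ℝ _ _) hbΩ
  refine ⟨y, hrδ ((convex_ball z _).segment_subset ha hb hy), hyf, ?_⟩
  intro hyz
  rw [mem_singleton_iff] at hyz
  rw [hyz] at hy
  obtain ⟨a, b, -, -, hab, he⟩ := hy
  have e : (b - a) • v + t = 0 := by
    have h1 : ε • ((b - a) • v + t) = 0 := by
      have : a = 1 - b := by linarith
      subst this
      calc ε • ((b - (1 - b)) • v + t)
          = ((1 - b) • (z + ε • (t - v)) + b • (z + ε • (t + v))) - z := by module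
        _ = 0 := by rw [he, sub_self]
    exact (smul_eq_zero.1 h1).resolve_left hε.1.ne'
  have := congrArg L e
  rw [map_add, map_smul, hv, htL, map_zero, smul_eq_mul, mul_one, add_zero] at this
  rw [this, zero_smul, zero_add] at e
  exact ht e

end

end Vale.Agent.P136.Full.Rig
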