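import Mathlib
import Vale.Agent.P136.Full.Rigidity.Identities
import Vale.Agent.P136.Full.Rigidity.Propagate

/-!
# P136: the gauge gives uniqueness
-/

open MeasureTheory Set Filter
open scoped ContDiff Topology

namespace Vale.Agent.P136.Full.Rig

noncomputable section

theorem Dth_div {a b : Space → ℂ} {x : Space} (θ : C3) (ha : DifferentiableAt ℝ a x)
    (hb : DifferentiableAt ℝ b x) (h0 : b x ≠ 0) :
    Dth θ (fun y => a y / b y) x = (Dth θ a x * b x - a x * Dth θ b x) / b x ^ 2 := by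
  simp only [Dth, pd_div _ ha hb h0, Fin.sum_univ_three, smul_eq_mul]
  ring

theorem ratio_algebra {m m' A A' dm dm' dA dA' : ℂ} (hm : m ≠ 0) (hm' : m' ≠ 0) (hA : A ≠ 0)
    (hA' : A' ≠ 0) (hs : A + m ≠ 0) (hs' : A' + m' ≠ 0)
    (h : ((dm * A' + m * dA') * (A * m') - m * A' * (dA * m' + A * dm')) / (A * m') ^ 2 =
      m * A' / (A * m') * ((dA' - A' * dm' / m') / (A' + m') - (dA - A * dm / m) / (A + m))) :
    (((dA' + dm') * A + (A' + m') * dA) * (A' * (A + m)) -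
      (A' + m') * A * (dA' * (A + m) + A' * (dA + dm))) / (A' * (A + m)) ^ 2 = 0 := by
  have e : ((dm * A' + m * dA') * (A * m') - m * A' * (dA * m' + A * dm')) / (A * m') ^ 2 -
      m * A' / (A * m') * ((dA' - A' * dm' / m') / (A' + m') - (dA - A * dm / m) / (A + m)) =
    -(m * A' / (A * m') * (A' * (A + m) / ((A' + m') * A))) *
      ((((dA' + dm') * A + (A' + m') * dA) * (A' * (A + m)) -
        (A' + m') * A * (dA' * (A + m) + A' * (dA + dm))) / (A' * (A + m)) ^ 2) := by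
    field_simp
    ring
  rw [sub_eq_zero.2 h] at e
  exact (mul_eq_zero.1 e.symm).resolve_left (neg_ne_zero.2 (mul_ne_zero
    (div_ne_zero (mul_ne_zero hm hA') (mul_ne_zero hA hm'))
    (div_ne_zero (mul_ne_zero hA' hs) (mul_ne_zero hs' hA))))

theorem hess_algebra {m A dm dA q Q QQ D2 W : ℂ} (hm : m ≠ 0) (hA : A ≠ 0) (hs : A + m ≠ 0)
    (hq : q ≠ 0)
    (h : q * (m ^ 2 / (A + m)) *
        ((2 * Q ^ 2 + 2 * q * QQ) * (q ^ 2 * m)⁻¹ + 4 * q * Q * (-D2 / (q ^ 2 * m) ^ 2) + q ^ 2 * W) -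
      2 * ((dm * A - m * dA) / A ^ 2 * Q + m / A * QQ) +
      (2 * (D2 / (2 * (q ^ 2 * m))) - (dA - A * dm / m) / (A + m)) * (2 * m * Q / A) -
      q * 1 * ((q ^ 2 * m) ^ 2 / (q ^ 2 * A + q ^ 2 * m)) * W = 0) :
    m / A * QQ + Q * ((dm * A - m * dA) / A ^ 2 - (m / A - 1) * (D2 / (q ^ 2 * m)) - Q / q) = 0 := by
  have hs' : q ^ 2 * A + q ^ 2 * m ≠ 0 := by
    rw [← mul_add]; exact mul_ne_zero (pow_ne_zero 2 hq) hs
  have e : q * (m ^ 2 / (A + m)) *
        ((2 * Q ^ 2 + 2 * q * QQ) * (q ^ 2 * m)⁻¹ + 4 * q * Q * (-D2 / (q ^ 2 * m) ^ 2) + q ^ 2 * W) -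
      2 * ((dm * A - m * dA) / A ^ 2 * Q + m / A * QQ) +
      (2 * (D2 / (2 * (q ^ 2 * m))) - (dA - A * dm / m) / (A + m)) * (2 * m * Q / A) -
      q * 1 * ((q ^ 2 * m) ^ 2 / (q ^ 2 * A + q ^ 2 * m)) * W =
    -(2 * m / (A + m)) *
      (m / A * QQ + Q * ((dm * A - m * dA) / A ^ 2 - (m / A - 1) * (D2 / (q ^ 2 * m)) - Q / q)) := by
    rw [← mul_add (q ^ 2) A m]
    field_simp
    ring
  rw [h] at e
  refine (mul_eq_zero.1 e.symm).resolve_left ?_
  simp [hm, hs]

variable {Ω : Set Space} {M₁ M₂ : Moduli}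

theorem pd_muC_frontier (hF : FirstOrderEq Ω M₁ M₂) {x : Space} (hx : x ∈ frontier Ω) (i : Fin 3) :
    pd i M₁.muC x = pd i M₂.muC x := by
  rw [show M₁.muC = fun y => (M₁.mu y : ℂ) from rfl, show M₂.muC = fun y => (M₂.mu y : ℂ) from rfl,
    pd_ofReal i (M₁.mu_smooth.differentiable (by simp) x),
    pd_ofReal i (M₂.mu_smooth.differentiable (by simp) x), (hF x hx).2.2.2]

theorem const_of_grad_zero {f : Space → ℂ} (hΩ : IsOpen Ω) (hb : Bornology.IsBounded Ω)
    (hf : ContDiff ℝ ∞ f) (hd : ∀ x ∈ Ω, ∀ i, pd i f x = 0) (h0 : ∀ x ∈ frontier Ω, f x = 1) :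
    ∀ x ∈ closure Ω, f x = 1 := by
  have h := propagate hΩ hb (F := fun x => f x - 1) ((hf.sub contDiff_const).of_le (by simp)) (C := 0)
    (fun x hx i => by
      rw [fderiv_sub_const]
      simp [show fderiv ℝ f x (Pi.single i 1) = 0 from hd x hx i])
    (fun x hx => by simp [h0 x hx])
  intro x hx
  exact (Set.EqOn.closure (fun y hy => sub_eq_zero.1 (h y hy) : EqOn f (fun _ => 1) Ω)
    hf.continuous continuous_const) hx

/-- The ratio comparing `μ / (λ + μ)`. -/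
def ratR (M₁ M₂ : Moduli) (x : Space) : ℂ :=
  (M₂.AC x + M₂.muC x) * M₁.AC x / (M₂.AC x * (M₁.AC x + M₁.muC x))

/-- `μ₁ / (λ₁ + μ₁)`. -/
def kap (M₁ : Moduli) (x : Space) : ℂ := M₁.muC x / M₁.AC x

/-- The first order coefficients of the Hessian equation. -/
def om (M₁ M₂ : Moduli) (i : Fin 3) (x : Space) : ℂ :=
  -(pd i (kap M₁) x - (kap M₁ x - 1) * (pd i M₂.muC x / M₂.muC x) -
    pd i (qC M₁ M₂) x / qC M₁ M₂ x) / kap M₁ x

/-- The scalar unknown. -/
def hh (M₁ M₂ : Moduli) (x : Space) : ℂ :=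
  pd 0 (pd 0 (qC M₁ M₂)) x - pd 0 (qC M₁ M₂) x * om M₁ M₂ 0 x

theorem kap_ne (x : Space) : kap M₁ x ≠ 0 := div_ne_zero (M₁.muC_ne x) (M₁.AC_ne x)

theorem contDiff_kap : ContDiff ℝ ∞ (kap M₁) := contDiff_div M₁.contDiff_muC M₁.contDiff_AC M₁.AC_ne

theorem contDiff_om (i : Fin 3) : ContDiff ℝ ∞ (om M₁ M₂ i) :=
  contDiff_div (((contDiff_pd contDiff_kap i).sub ((contDiff_kap.sub contDiff_const).mul
    (contDiff_div (contDiff_pd M₂.contDiff_muC i) M₂.contDiff_muC M₂.muC_ne))).sub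
    (contDiff_div (contDiff_pd contDiff_qC i) contDiff_qC qC_ne)).neg contDiff_kap kap_ne

theorem contDiff_hh : ContDiff ℝ ∞ (hh M₁ M₂) :=
  (contDiff_pd (contDiff_pd contDiff_qC 0) 0).sub ((contDiff_pd contDiff_qC 0).mul (contDiff_om 0))

variable (Γ : Gauge Ω M₁ M₂) (hΩ : IsOpen Ω) (hb : Bornology.IsBounded Ω) (hF : FirstOrderEq Ω M₁ M₂)
include Γ hΩ hb hF

theorem rat_eq_one : ∀ x ∈ closure Ω, rat M₁ M₂ x = 1 := by
  have hden : ∀ y, M₂.AC y * (M₁.AC y + M₁.muC y) ≠ 0 := fun y =>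
    mul_ne_zero (M₂.AC_ne y) (M₁.AC_add_muC_ne y)
  have hR : ContDiff ℝ ∞ (ratR M₁ M₂) := contDiff_div
    ((M₂.contDiff_AC.add M₂.contDiff_muC).mul M₁.contDiff_AC)
    (M₂.contDiff_AC.mul (M₁.contDiff_AC.add M₁.contDiff_muC)) hden
  have hz : ∀ x ∈ Ω, ∀ i, pd i (ratR M₁ M₂) x = 0 := by
    intro x hx
    refine linear_conic fun z => ?_
    set θ := conic z
    have d := fun {f : Space → ℂ} (h : ContDiff ℝ ∞ f) => Moduli.differentiableAt_of h x
    have a1 := d M₁.contDiff_AC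
    have a2 := d M₂.contDiff_AC
    have m1 := d M₁.contDiff_muC
    have m2 := d M₂.contDiff_muC
    have h := eq_rat Γ hΩ hb hF z x hx
    rw [show rat M₁ M₂ = fun y => M₁.muC y * M₂.AC y / (M₁.AC y * M₂.muC y) from rfl,
      Dth_div θ (m1.fun_mul a2) (a1.fun_mul m2) (mul_ne_zero (M₁.AC_ne x) (M₂.muC_ne x)),
      Dth_mul θ m1 a2, Dth_mul θ a1 m2] at h
    simp only [beta] at h
    have e : bdot θ (fun i => pd i (ratR M₁ M₂) x) = Dth θ (ratR M₁ M₂) x := by simp [bdot, Dth]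
    rw [e, show ratR M₁ M₂ = fun y => (M₂.AC y + M₂.muC y) * M₁.AC y /
        (M₂.AC y * (M₁.AC y + M₁.muC y)) from rfl,
      Dth_div θ ((a2.fun_add m2).fun_mul a1) (a2.fun_mul (a1.fun_add m1)) (hden x),
      Dth_mul θ (a2.fun_add m2) a1, Dth_mul θ a2 (a1.fun_add m1), Dth_add θ a2 m2, Dth_add θ a1 m1]
    exact ratio_algebra (M₁.muC_ne x) (M₂.muC_ne x) (M₁.AC_ne x) (M₂.AC_ne x) (M₁.AC_add_muC_ne x)
      (M₂.AC_add_muC_ne x) h
  have h0 : ∀ x ∈ frontier Ω, ratR M₁ M₂ x = 1 := fun x hx => by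
    have e1 : M₂.muC x = M₁.muC x := by simp [Moduli.muC, (hF x hx).2.1]
    have e2 : M₂.AC x = M₁.AC x := by simp [Moduli.AC, Moduli.A, (hF x hx).1, (hF x hx).2.1]
    rw [ratR, e1, e2, mul_comm, div_self (mul_ne_zero (M₁.AC_ne x) (M₁.AC_add_muC_ne x))]
  intro x hx
  have h := const_of_grad_zero hΩ hb hR hz h0 x hx
  rw [ratR, div_eq_one_iff_eq (hden x)] at h
  rw [rat, div_eq_one_iff_eq (mul_ne_zero (M₁.AC_ne x) (M₂.muC_ne x))]
  linear_combination -h

theorem hess_eq : ∀ x ∈ Ω, ∀ i j, pd j (pd i (qC M₁ M₂)) x =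
    (pd i (qC M₁ M₂) x * om M₁ M₂ j x + pd j (qC M₁ M₂) x * om M₁ M₂ i x) / 2 +
      if i = j then hh M₁ M₂ x else 0 := by
  intro x hx
  have hq : ContDiff ℝ ∞ (qC M₁ M₂) := contDiff_qC
  have hquad : ∀ z, Dth (conic z) (Dth (conic z) (qC M₁ M₂)) x =
      Dth (conic z) (qC M₁ M₂) x * bdot (conic z) (fun i => om M₁ M₂ i x) := by
    intro z
    set θ := conic z
    have h := eq_hess Γ hΩ hb hF z x hx
    set q := qC M₁ M₂ with hqdef
    have dq := fun y => Moduli.differentiableAt_of hq y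
    have dQ := fun y => Moduli.differentiableAt_of (contDiff_Dth hq θ) y
    have dM := fun y => Moduli.differentiableAt_of M₂.contDiff_mC y
    have dN := fun y => Moduli.differentiableAt_of (contDiff_Dth M₂.contDiff_mC θ) y
    have hm1 : M₁.mC = fun y => q y * q y * M₂.mC y := funext fun y => by
      rw [M₁.mC_eq, M₂.mC_eq, ← qC_sq (M₁ := M₁) (M₂ := M₂) y, ← hqdef]
      have := M₁.muC_ne y
      have : q y ≠ 0 := qC_ne y
      field_simp
    have hD1 : Dth θ M₁.mC = fun y => 2 * (q y * Dth θ q y) * M₂.mC y + q y * q y * Dth θ M₂.mC y := by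
      funext y
      rw [hm1, Dth_mul θ ((dq y).fun_mul (dq y)) (dM y), Dth_mul θ (dq y) (dq y)]
      ring
    have hD2 : Dth θ (Dth θ M₁.mC) x = (2 * Dth θ q x ^ 2 + 2 * q x * Dth θ (Dth θ q) x) * M₂.mC x +
        4 * q x * Dth θ q x * Dth θ M₂.mC x + q x ^ 2 * Dth θ (Dth θ M₂.mC) x := by
      rw [hD1, Dth_add θ ((((dq x).fun_mul (dQ x)).const_mul 2).fun_mul (dM x))
          (((dq x).fun_mul (dq x)).fun_mul (dN x)),
        Dth_mul θ (((dq x).fun_mul (dQ x)).const_mul 2) (dM x),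
        Dth_mul θ ((dq x).fun_mul (dq x)) (dN x), Dth_mul θ (dq x) (dq x),
        show Dth θ (fun y => 2 * (q y * Dth θ q y)) x = 2 * Dth θ (fun y => q y * Dth θ q y) x from
          Dth_const_smul θ (2 : ℂ) ((dq x).fun_mul (dQ x)), Dth_mul θ (dq x) (dQ x)]
      ring
    have hDm : Dth θ M₂.mC x = -Dth θ M₂.muC x / M₂.muC x ^ 2 := by
      simp only [Dth, Moduli.pd_mC, Fin.sum_univ_three, smul_eq_mul]; ring
    have hDk : Dth θ (kap M₁) x =
        (Dth θ M₁.muC x * M₁.AC x - M₁.muC x * Dth θ M₁.AC x) / M₁.AC x ^ 2 :=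
      Dth_div θ (Moduli.differentiableAt_of M₁.contDiff_muC x)
        (Moduli.differentiableAt_of M₁.contDiff_AC x) (M₁.AC_ne x)
    have hl : Dth θ (fun y => 2 * M₁.muC y * Dth θ q y / M₁.AC y) x =
        2 * (Dth θ (kap M₁) x * Dth θ q x + kap M₁ x * Dth θ (Dth θ q) x) := by
      rw [show (fun y => 2 * M₁.muC y * Dth θ q y / M₁.AC y) =
          fun y => (2 : ℂ) • (kap M₁ y * Dth θ q y) by funext y; simp [kap]; ring,
        Dth_const_smul θ (2 : ℂ) ((Moduli.differentiableAt_of contDiff_kap x).fun_mul (dQ x)),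
        Dth_mul θ (Moduli.differentiableAt_of contDiff_kap x) (dQ x), smul_eq_mul]
    have hr := rat_eq_one Γ hΩ hb hF x (subset_closure hx)
    have hmu : M₂.muC x = q x ^ 2 * M₁.muC x := (qC_sq x).symm
    have hA : M₂.AC x = q x ^ 2 * M₁.AC x := by
      rw [rat, div_eq_one_iff_eq (mul_ne_zero (M₁.AC_ne x) (M₂.muC_ne x)), hmu] at hr
      apply mul_left_cancel₀ (M₁.muC_ne x)
      linear_combination hr
    rw [hD2, hl, hr, hDm, M₂.mC_eq, hDk] at h
    simp only [cc, beta, mh, kap, hmu, hA] at h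
    have key := hess_algebra (M₁.muC_ne x) (M₁.AC_ne x) (M₁.AC_add_muC_ne x) (qC_ne x) h
    have hom : bdot θ (fun i => om M₁ M₂ i x) = -(Dth θ (kap M₁) x -
        (kap M₁ x - 1) * (Dth θ M₂.muC x / M₂.muC x) - Dth θ q x / q x) / kap M₁ x := by
      simp only [bdot, om, Dth, ← hqdef, Fin.sum_univ_three, smul_eq_mul]
      ring
    rw [hom, hDk, hmu]
    simp only [kap]
    have := M₁.muC_ne x
    have := M₁.AC_ne x
    rw [← mul_div_assoc, eq_div_iff (div_ne_zero (M₁.muC_ne x) (M₁.AC_ne x))]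
    linear_combination key
  let S : Fin 3 → Fin 3 → ℂ := fun i j => 2 * pd j (pd i (qC M₁ M₂)) x -
    (pd i (qC M₁ M₂) x * om M₁ M₂ j x + pd j (qC M₁ M₂) x * om M₁ M₂ i x)
  have hS := quadratic_conic (S := S) (fun i j => by simp only [S]; rw [pd_comm hq j i]; ring) (fun z => by
    have h := hquad z
    rw [← hess_quad _ _ hq] at h
    simp only [bdot, hessVec, hess, Dth, Fin.sum_univ_three, smul_eq_mul] at h
    simp only [S, Fin.sum_univ_three]
    linear_combination 2 * h)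
  intro i j
  have h1 := hS i j
  simp only [S] at h1
  split_ifs with hij
  · subst hij
    rw [if_pos rfl] at h1
    simp only [hh]
    linear_combination h1 / 2
  · rw [if_neg hij] at h1
    linear_combination h1 / 2

theorem bound_F : ∃ C : ℝ, ∀ x ∈ Ω, ∀ l : Fin 3,
    ‖fderiv ℝ (fun y => ((grad (qC M₁ M₂) y, hh M₁ M₂ y) : Amp)) x (Pi.single l 1)‖ ≤
      C * ‖((grad (qC M₁ M₂) x, hh M₁ M₂ x) : Amp)‖ := by
  set q := qC M₁ M₂ with hqdef
  have hq : ContDiff ℝ ∞ q := contDiff_qC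
  have hw : ∀ i, Continuous (om M₁ M₂ i) := fun i => (contDiff_om i).continuous
  obtain ⟨W, hW⟩ := hb.isCompact_closure.exists_bound_of_continuousOn
    (f := fun x => ((fun i => om M₁ M₂ i x, fun i j => pd i (om M₁ M₂ j) x) : C3 × (Fin 3 → C3)))
    ((continuous_pi hw).prodMk (continuous_pi fun i => continuous_pi fun j =>
      (contDiff_pd (contDiff_om j) i).continuous)).continuousOn
  have hloc : ∀ x ∈ Ω, ∀ i j, (fun y => pd j (pd i q) y) =ᶠ[𝓝 x] fun y =>
      (pd i q y * om M₁ M₂ j y + pd j q y * om M₁ M₂ i y) / 2 + if i = j then hh M₁ M₂ y else 0 :=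
    fun x hx i j => Filter.eventually_of_mem (hΩ.mem_nhds hx) fun y hy =>
      hess_eq Γ hΩ hb hF y hy i j
  refine ⟨3 * (W + 1) ^ 2, fun x hx l => ?_⟩
  set N := ‖((grad q x, hh M₁ M₂ x) : Amp)‖ with hN
  have hW' := hW x (subset_closure hx)
  have hw1 : ∀ i, ‖om M₁ M₂ i x‖ ≤ W := fun i =>
    (norm_le_pi_norm (fun i => om M₁ M₂ i x) i).trans ((le_max_left _ _).trans hW')
  have hw2 : ∀ i j, ‖pd i (om M₁ M₂ j) x‖ ≤ W := fun i j =>
    (norm_le_pi_norm (fun j => pd i (om M₁ M₂ j) x) j).trans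
      ((norm_le_pi_norm (fun i j => pd i (om M₁ M₂ j) x) i).trans ((le_max_right _ _).trans hW'))
  have hW0 : 0 ≤ W := (norm_nonneg _).trans (hw1 0)
  have hN0 : 0 ≤ N := norm_nonneg _
  have hq1 : ∀ i, ‖pd i q x‖ ≤ N := fun i => (norm_le_pi_norm (grad q x) i).trans (le_max_left _ _)
  have hh1 : ‖hh M₁ M₂ x‖ ≤ N := le_max_right _ _
  have hp : ∀ a b : ℂ, ‖a‖ ≤ N → ‖b‖ ≤ W → ‖a * b‖ ≤ N * W := fun a b ha hb' => by
    rw [norm_mul]; exact mul_le_mul ha hb' (norm_nonneg _) hN0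
  have hH : ∀ i j, ‖pd j (pd i q) x‖ ≤ (W + 1) * N := by
    intro i j
    rw [hess_eq Γ hΩ hb hF x hx i j]
    refine (norm_add_le _ _).trans ?_
    have h1 : ‖(pd i q x * om M₁ M₂ j x + pd j q x * om M₁ M₂ i x) / 2‖ ≤ N * W := by
      rw [norm_div, Complex.norm_two, div_le_iff₀ two_pos]
      exact (norm_add_le _ _).trans (by linarith [hp _ _ (hq1 i) (hw1 j), hp _ _ (hq1 j) (hw1 i)])
    have h2 : ‖if i = j then hh M₁ M₂ x else 0‖ ≤ N := by
      split_ifs
      · exact hh1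
      · simpa using hN0
    linarith
  have hF' : ContDiff ℝ ∞ (fun y => ((grad q y, hh M₁ M₂ y) : Amp)) :=
    (contDiff_grad hq).prodMk contDiff_hh
  have dF := hF'.differentiable (by simp) x
  show ‖pd l (fun y => ((grad q y, hh M₁ M₂ y) : Amp)) x‖ ≤ _
  rw [Prod.norm_def, ← pd_fst l dF, ← pd_snd l dF]
  refine max_le ?_ ?_
  · rw [pi_norm_le_iff_of_nonneg (by positivity)]
    intro i
    rw [← pd_apply l i ((contDiff_grad hq).differentiable (by simp) x)]
    refine (hH i l).trans (mul_le_mul_of_nonneg_right ?_ hN0)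
    nlinarith
  · obtain ⟨j, hj⟩ : ∃ j : Fin 3, j ≠ l := exists_ne l
    have dd : ∀ {f : Space → ℂ}, ContDiff ℝ ∞ f → DifferentiableAt ℝ f x := fun h =>
      Moduli.differentiableAt_of h x
    have h0 : (fun y => hh M₁ M₂ y) =ᶠ[𝓝 x] fun y => pd j (pd j q) y - pd j q y * om M₁ M₂ j y := by
      filter_upwards [hloc x hx j j] with y hy
      rw [hy, if_pos rfl]; ring
    have e1 : pd l (fun y => hh M₁ M₂ y) x = pd l (pd j (pd j q)) x -
        (pd l (pd j q) x * om M₁ M₂ j x + pd j q x * pd l (om M₁ M₂ j) x) := by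
      rw [pd_congr h0, pd_sub l (dd (contDiff_pd (contDiff_pd hq j) j))
        ((dd (contDiff_pd hq j)).fun_mul (dd (contDiff_om j))),
        pd_mul l (dd (contDiff_pd hq j)) (dd (contDiff_om j))]
    have e2 : pd l (pd j (pd j q)) x = (pd j (pd j q) x * om M₁ M₂ l x + pd j q x * pd j (om M₁ M₂ l) x +
        (pd j (pd l q) x * om M₁ M₂ j x + pd l q x * pd j (om M₁ M₂ j) x)) / 2 := by
      rw [pd_comm (contDiff_pd hq j) l j]
      have h := hloc x hx j l
      simp only [if_neg hj, add_zero] at h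
      rw [pd_congr h j, show (fun y => (pd j q y * om M₁ M₂ l y + pd l q y * om M₁ M₂ j y) / 2) =
        fun y => (2 : ℂ)⁻¹ • (pd j q y * om M₁ M₂ l y + pd l q y * om M₁ M₂ j y) by
          funext y; simp; ring,
        pd_const_smul j _ (((dd (contDiff_pd hq j)).fun_mul (dd (contDiff_om l))).fun_add
          ((dd (contDiff_pd hq l)).fun_mul (dd (contDiff_om j)))),
        pd_add j ((dd (contDiff_pd hq j)).fun_mul (dd (contDiff_om l)))
          ((dd (contDiff_pd hq l)).fun_mul (dd (contDiff_om j))),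
        pd_mul j (dd (contDiff_pd hq j)) (dd (contDiff_om l)),
        pd_mul j (dd (contDiff_pd hq l)) (dd (contDiff_om j)), smul_eq_mul]
      ring
    show ‖pd l (fun y => hh M₁ M₂ y) x‖ ≤ _
    rw [e1, e2]
    have hp2 : ∀ a b : ℂ, ‖a‖ ≤ (W + 1) * N → ‖b‖ ≤ W → ‖a * b‖ ≤ (W + 1) * N * W :=
      fun a b ha hb' => by rw [norm_mul]; exact mul_le_mul ha hb' (norm_nonneg _) (by positivity)
    refine (norm_sub_le _ _).trans ?_
    rw [norm_div, Complex.norm_two]
    have t1 := (norm_add_le (pd j (pd j q) x * om M₁ M₂ l x + pd j q x * pd j (om M₁ M₂ l) x)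
      (pd j (pd l q) x * om M₁ M₂ j x + pd l q x * pd j (om M₁ M₂ j) x)).trans
      (add_le_add ((norm_add_le _ _).trans (add_le_add (hp2 _ _ (hH j j) (hw1 l))
        (hp _ _ (hq1 j) (hw2 j l)))) ((norm_add_le _ _).trans (add_le_add (hp2 _ _ (hH l j) (hw1 j))
        (hp _ _ (hq1 l) (hw2 j j)))))
    have t2 := (norm_add_le (pd l (pd j q) x * om M₁ M₂ j x) (pd j q x * pd l (om M₁ M₂ j) x)).trans
      (add_le_add (hp2 _ _ (hH j l) (hw1 j)) (hp _ _ (hq1 j) (hw2 l j)))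
    nlinarith [mul_nonneg hN0 hW0, mul_nonneg hN0 (mul_nonneg hW0 hW0)]

theorem grad_qC_zero (hS : SmoothDomain Ω) : ∀ x ∈ Ω, grad (qC M₁ M₂) x = 0 := by
  set q := qC M₁ M₂ with hqdef
  have hq : ContDiff ℝ ∞ q := contDiff_qC
  obtain ⟨C, hC⟩ := bound_F Γ hΩ hb hF
  have hg : ∀ y ∈ frontier Ω, grad q y = 0 := fun y hy => by
    funext i
    show pd i q y = 0
    rw [hqdef, pd_qC, pd_muC_frontier hF hy i,
      show M₁.muC y = M₂.muC y by simp [Moduli.muC, (hF y hy).2.1], sub_self, mul_zero, zero_div]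
  have h0 : ∀ y ∈ frontier Ω, ((grad q y, hh M₁ M₂ y) : Amp) = 0 := by
    intro y hy
    refine Prod.ext (hg y hy) ?_
    show hh M₁ M₂ y = 0
    by_contra hne
    have heq : ∀ i j, pd j (pd i q) y = if i = j then hh M₁ M₂ y else 0 := by
      intro i j
      have hc : Continuous fun x => (pd i q x * om M₁ M₂ j x + pd j q x * om M₁ M₂ i x) / 2 +
          if i = j then hh M₁ M₂ x else 0 := by
        refine ((((contDiff_pd hq i).continuous.mul (contDiff_om j).continuous).add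
          ((contDiff_pd hq j).continuous.mul (contDiff_om i).continuous)).div_const 2).add ?_
        split_ifs
        · exact contDiff_hh.continuous
        · exact continuous_const
      have h := Set.EqOn.closure (fun x hx => hess_eq Γ hΩ hb hF x hx i j :
        EqOn (pd j (pd i q)) _ Ω) (contDiff_pd (contDiff_pd hq i) j).continuous hc
        (frontier_subset_closure hy)
      have z1 : pd i q y = 0 := congrFun (hg y hy) i
      have z2 : pd j q y = 0 := congrFun (hg y hy) j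
      rw [hqdef] at z1 z2
      simp only [z1, z2, zero_mul, add_zero, zero_div, zero_add] at h
      exact h
    have hd := ((contDiff_grad hq).differentiable (by simp) y).hasFDerivAt
    have hval : ∀ v : Space, ∀ i, fderiv ℝ (grad q) y v i = (v i : ℂ) * hh M₁ M₂ y := by
      intro v i
      have e : v = ∑ j, v j • (Pi.single j (1 : ℝ) : Space) := by
        funext k; simp [Pi.single_apply]
      conv_lhs => rw [e]
      simp only [map_sum, map_smul, Finset.sum_apply, Pi.smul_apply]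
      have h2 : ∀ j, fderiv ℝ (grad q) y (Pi.single j 1) i = if i = j then hh M₁ M₂ y else 0 := by
        intro j
        show pd j (grad q) y i = _
        rw [← pd_apply j i ((contDiff_grad hq).differentiable (by simp) y)]
        exact heq i j
      simp [h2, Complex.real_smul]
    have hne' : ∀ᶠ w in 𝓝[≠] y, grad q w ≠ 0 := by
      refine hd.eventually_ne (c := 0)
        ⟨‖hh M₁ M₂ y‖₊⁻¹, ContinuousLinearMap.antilipschitz_of_bound _ fun v => ?_⟩
      rw [NNReal.coe_inv, coe_nnnorm, inv_mul_eq_div, le_div_iff₀ (norm_pos_iff.2 hne), ← le_div_iff₀ (norm_pos_iff.2 hne)]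
      rw [pi_norm_le_iff_of_nonneg (by positivity)]
      intro i
      rw [le_div_iff₀ (norm_pos_iff.2 hne)]
      refine le_of_eq_of_le ?_ (norm_le_pi_norm (fderiv ℝ (grad q) y v) i)
      rw [hval, norm_mul, Complex.norm_real]
    obtain ⟨w, hw1, hw2⟩ := ((frontier_not_isolated hS hy).and_eventually hne').exists
    exact hw2 (hg w hw1)
  intro x hx
  have h := propagate hΩ hb (F := fun y => ((grad q y, hh M₁ M₂ y) : Amp))
    (((contDiff_grad hq).prodMk contDiff_hh).of_le (by simp)) hC h0 x hx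
  exact congrArg Prod.fst h

end

end Vale.Agent.P136.Full.Rig

namespace Vale.Agent.P136.Full

open Rig

noncomputable section

/-- Module I. -/
theorem rigidity : RigidityStmt := by
  intro Ω M₁ M₂ hS _ hF Γ x hx
  have hΩ := hS.isOpen
  have hb := hS.bounded
  have hq : qC M₁ M₂ x = 1 := const_of_grad_zero hΩ hb contDiff_qC
    (fun y hy i => congrFun (grad_qC_zero Γ hΩ hb hF hS y hy) i) (fun y hy => qC_frontier hF hy) x hx
  have hm : M₁.muC x = M₂.muC x := by
    have := qC_sq (M₁ := M₁) (M₂ := M₂) x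
    rw [hq] at this
    simpa using this
  have hr := rat_eq_one Γ hΩ hb hF x hx
  rw [rat, hm, div_eq_one_iff_eq (mul_ne_zero (M₁.AC_ne x) (M₂.muC_ne x)), mul_comm] at hr
  have hA := mul_right_cancel₀ (M₂.muC_ne x) hr
  have hm' : M₁.mu x = M₂.mu x := Complex.ofReal_injective hm
  have hA' : M₁.A x = M₂.A x := (Complex.ofReal_injective hA).symm
  exact ⟨by unfold Moduli.A at hA'; linarith, hm'⟩

end

end Vale.Agent.P136.Full
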